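import Vale.Agent.P110.Exist.Spec

/-!
Interfaces inside the layout: runs of segments, the path through given runs, and the cells.
-/

open Real Finset

namespace Vale.Agent.P110.Exist.Layout

/-- The segment from `(t0, κ0)` to `(t1, κ1)` with phase `z` (already times `N`) at its start. -/
noncomputable def segV (N : ℕ) (t0 κ0 t1 κ1 z : ℝ) (k : ℤ) : ℂ :=
  let σ := (t1 - t0) / (κ1 - κ0)
  let s := |σ|
  let c := (k : ℝ) / N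
  (√s : ℂ) * e (z - k * t0 - σ * N * (κ0 - c) ^ 2 / 2) *
    (if 0 < σ then fresnel (√(s * N) * (κ1 - c)) - fresnel (√(s * N) * (κ0 - c))
    else (starRingEnd ℂ) (fresnel (√(s * N) * (c - κ1)) - fresnel (√(s * N) * (c - κ0))))

/-- A run of segments with prescribed phase `z` at its start. -/
structure Run where
  L : ℕ
  t : ℕ → ℝ
  kap : ℕ → ℝ
  z : ℝ

namespace Run

/-- The phase at knot `l`. -/
noncomputable def zl (R : Run) (N l : ℕ) : ℝ :=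
  R.z + N * ∑ i ∈ range l, (R.kap i + R.kap (i + 1)) / 2 * (R.t (i + 1) - R.t i)

/-- The sum of the segments of a run. -/
noncomputable def sum (R : Run) (N : ℕ) (k : ℤ) : ℂ :=
  ∑ l ∈ range R.L, segV N (R.t l) (R.kap l) (R.t (l + 1)) (R.kap (l + 1)) (R.zl N l) k

/-- The mirror image under `t ↦ 1 - t`. -/
noncomputable def rev (R : Run) (N : ℕ) : Run where
  L := R.L
  t l := 1 - R.t (R.L - l)
  kap l := R.kap (R.L - l)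
  z := -(R.zl N R.L)

end Run

/-- Mirroring conjugates the coefficients. -/
def RevSpec : Prop :=
  ∀ (R : Run) (N : ℕ), 0 < N →
    (∀ l < R.L, R.t l < R.t (l + 1) ∧ R.kap l < R.kap (l + 1)) →
    ∀ k : ℤ, (R.rev N).sum N k = (starRingEnd ℂ) (R.sum N k)

/-- A path through given runs in the cells `[c, c + 1) / (2 Q)` of `[0, 1/2)`; consecutive runs
are joined by two short segments through the band `[kp + δ, kp + 2 δ]`. -/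
def PathBuildSpec : Prop :=
  ∀ (ι : Type) [Fintype ι] (R : ι → Run) (cell len : ι → ℕ) (Q N mx : ℕ) (Cf δ ell kp σ0 : ℝ),
    0 < Q → 0 < δ → 0 < ell → ell < 1 → δ ≤ kp → (∀ y, ‖fresnel y‖ ≤ Cf) →
    (∀ j, 0 < len j ∧ len j ≤ mx ∧ cell j + len j ≤ Q) →
    (∀ c < Q, ∃ j, cell j ≤ c ∧ c < cell j + len j) →
    (∀ j j' c, cell j ≤ c → c < cell j + len j → cell j' ≤ c → c < cell j' + len j' → j = j') →
    (∀ j, (R j).t 0 = ((cell j : ℝ) + ell / 2 * len j) / (2 * Q) ∧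
      (R j).t (R j).L = ((cell j : ℝ) + len j - ell / 2 * len j) / (2 * Q)) →
    (∀ j, ∀ l < (R j).L, (R j).t l < (R j).t (l + 1) ∧ (R j).kap l ≠ (R j).kap (l + 1) ∧
      σ0 ≤ |((R j).t (l + 1) - (R j).t l) / ((R j).kap (l + 1) - (R j).kap l)|) →
    (∀ j, ∀ l ≤ (R j).L, (R j).kap l ∈ Set.Icc δ kp) →
    8 * Q ≤ N * ell * δ → σ0 ≤ ell / (8 * Q * (kp + 2 * δ)) →
    ∃ P : Path, (∃ z : ℤ, 2 * (N : ℝ) * P.phi P.J = z) ∧
      (∀ i ≤ P.J, P.kap i ∈ Set.Icc δ (kp + 2 * δ)) ∧ (∀ i < P.J, σ0 ≤ |P.sigma i|) ∧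
      P.J ≤ (∑ j, (R j).L) + 2 * (Fintype.card ι + 1) ∧
      ∀ k : ℤ, ‖(∑ i ∈ range P.J, P.seg N i k) - ∑ j, (R j).sum N k‖ ≤
        2 * (Fintype.card ι + 1) * (2 * Cf * √(ell * mx / (4 * Q * δ)))

/-- The cells: `u ∈ U i n` starts a piece of `n` in block `i` on `m n` cells mod `q`, and the
mirrored piece is on the cells `q - 1 - (u + l)`. -/
def CellsSpec : Prop :=
  ∀ (D : ℕ) (S : Finset (Fin D → ℤ)) (c : (Fin D → ℤ) → ℂ) (v : Fin D → ℤ), 2 ≤ D → S.Nonempty →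
    (∀ n ∈ S, ∃ y, dot n y = 1) → (∀ n ∈ S, -n ∉ S) → (∀ n ∈ S, 0 < dot n v) →
    (∀ n ∈ S, c n ≠ 0) → ∀ δ : ℝ, 0 < δ → δ < 1 →
    ∃ (Nb q : ℕ) (U : Fin Nb → (Fin D → ℤ) → Finset ℕ) (G : Fin Nb → (Fin D → ℤ) → ℕ → ℂ)
      (ρ : (Fin D → ℤ) → ℝ) (θ : Fin Nb → ℤ → Fin D → ℝ),
      0 < Nb ∧ 0 < q ∧ Even q ∧ (∀ n ∈ S, 0 < ρ n) ∧
      (∀ i, ∀ n ∈ S, ∀ u ∈ U i n, u + (dot n v).toNat ≤ q / 2 ∨
        (q / 2 ≤ u ∧ u + (dot n v).toNat ≤ q)) ∧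
      (∀ i i', ∀ n ∈ S, ∀ n' ∈ S, ∀ u ∈ U i n, ∀ u' ∈ U i' n', ∀ l < (dot n v).toNat,
        ∀ l' < (dot n' v).toNat, (u + l = u' + l' → i = i' ∧ n = n' ∧ u = u') ∧
          u + l + (u' + l') + 1 ≠ q) ∧
      (∀ i, ∀ n ∈ S, ∀ u ∈ U i n, ‖G i n u‖ ^ 2 = ρ n) ∧
      (∀ i, ∀ n ∈ S, ∀ k : ℤ, ∑ u ∈ U i n, G i n u * e ((u : ℝ) * k / q) =
        e (∑ j, n j * θ i k j)) ∧
      (∀ n ∈ S, |Nb * (2 * ∑ n' ∈ S, ‖c n'‖ ^ 2) * (dot n v).toNat / (q * ρ n) - ‖c n‖ ^ 2|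
        ≤ δ * ‖c n‖ ^ 2) ∧
      (1 - δ) * ((q : ℝ) / 2) ≤ ∑ i, ∑ n ∈ S, (((U i n).card * (dot n v).toNat : ℕ) : ℝ)

end Vale.Agent.P110.Exist.Layout
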