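import Vale.Agent.P110.Exist.Basic
import Vale.Agent.P110.Exist.Layout.Defs

/-!
The character `e`: finite sums in the exponent.
-/

open Real Finset

namespace Vale.Agent.P110.Exist.Layout

lemma conj_e (a : ℝ) : (starRingEnd ℂ) (e a) = e (-a) := (e_neg a).symm

lemma e_sum {α : Type*} (s : Finset α) (f : α → ℝ) : e (∑ a ∈ s, f a) = ∏ a ∈ s, e (f a) := by
  classical
  induction s using Finset.induction_on with
  | empty => simp
  | insert a s ha ih => rw [sum_insert ha, prod_insert ha, e_add, ih]

end Vale.Agent.P110.Exist.Layout
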