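import Vale.Agent.P110.Exist.Layout.Stair

/-!
The sum of the runs of one block.
-/

open Real Finset

namespace Vale.Agent.P110.Exist.Layout

/-- The phase at the start of the piece with coefficient `c` and weight `g`. -/
noncomputable def zeta (c g : ℂ) : ℝ := Complex.arg ((starRingEnd ℂ) (c * g) / fc) / (2 * π)

lemma e_zeta (c g : ℂ) :
    ((‖c‖ * ‖g‖ : ℝ) : ℂ) * fc * e (zeta c g) = (starRingEnd ℂ) (c * g) := by
  set w := (starRingEnd ℂ) (c * g) / fc with hw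
  have h := Complex.norm_mul_exp_arg_mul_I w
  have hn : ‖w‖ = ‖c‖ * ‖g‖ := by
    rw [hw, norm_div, norm_fc, div_one, Complex.norm_conj, norm_mul]
  have he : e (zeta c g) = Complex.exp (Complex.arg w * Complex.I) := by
    rw [e, zeta, ← hw]
    congr 2
    rw [mul_div_cancel₀ _ (by positivity : (2 * π : ℝ) ≠ 0)]
  rw [hn] at h
  rw [he, mul_right_comm, h, hw, div_mul_cancel₀ _ (show fc ≠ 0 from e_ne_zero _)]

/-- **One block.** -/
theorem block_bound {D : ℕ} {S : Finset (Fin D → ℤ)} {c : (Fin D → ℤ) → ℂ} {v : Fin D → ℤ}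
    (hv : ∀ n ∈ S, 0 < dot n v) (hc : ∀ n ∈ S, c n ≠ 0)
    (hg : ∀ θ : Fin D → ℝ, |2 * (∑ n ∈ S, c n * e (∑ j, n j * θ j)).re| ≤ 1)
    (U : (Fin D → ℤ) → Finset ℕ) (G : (Fin D → ℤ) → ℕ → ℂ) (ρ : (Fin D → ℤ) → ℝ)
    (θ : ℤ → Fin D → ℝ) {q N L : ℕ} (hN : 0 < N) {κ A : ℕ → ℝ} {B β δ Amp Ψ err : ℝ} (hB : 0 < B)
    (hρ : ∀ n ∈ S, 0 < ρ n) (hG : ∀ n ∈ S, ∀ u ∈ U n, ‖G n u‖ ^ 2 = ρ n)
    (hinv : ∀ n ∈ S, ∀ k : ℤ, ∑ u ∈ U n, G n u * e ((u : ℝ) * k / q) = e (∑ j, n j * θ k j))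
    (hnorm : ∀ n ∈ S, |(dot n v).toNat * B / ρ n - ‖c n‖ ^ 2| ≤ δ * ‖c n‖ ^ 2)
    (hA : ∀ l < L, 0 < A l) (hκ : ∀ l < L, κ l < κ (l + 1)) (hAmp : 0 ≤ Amp) (k : ℤ)
    (hAmp1 : Amp ≤ 1)
    (hst : ∀ n ∈ S, ∀ s : ℝ, s = (dot n v).toNat * B * N →
      ‖∑ l ∈ range L, (A l : ℂ) *
          e (s * (stP κ A l - (k : ℝ) / N * stT κ A l - A l ^ 2 * (κ l - (k : ℝ) / N) ^ 2 / 2)) *
          (fresnel (A l * √s * (κ (l + 1) - (k : ℝ) / N)) -
            fresnel (A l * √s * (κ l - (k : ℝ) / N))) -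
        fc * (Amp : ℂ) * e (s * Ψ)‖ ≤ err) :
    |2 * (∑ n ∈ S, ∑ u ∈ U n, (stairRun L κ A ((dot n v).toNat * B)
        ((u : ℝ) / q + (dot n v).toNat * B * β) (zeta (c n) (G n u))).sum N k).re| ≤
      Amp * (1 + 2 * δ * ∑ n ∈ S, ‖c n‖) +
        2 * ∑ n ∈ S, ∑ u ∈ U n, √((dot n v).toNat * B) * err := by
  classical
  set x : ℝ := (k : ℝ) / N with hx
  set cp : (Fin D → ℤ) → ℂ := fun n => (√((dot n v).toNat * B / ρ n) / ‖c n‖ : ℝ) * c n
  -- the waveform variable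
  set w : ℝ := B * (k * β - N * Ψ) with hw
  set θ' : Fin D → ℝ := fun j => θ k j + v j * w with hθ'
  have hω : ∀ n ∈ S, 0 < ((dot n v).toNat : ℝ) * B := fun n hn =>
    mul_pos (by exact_mod_cast Int.lt_toNat.2 (by simpa using hv n hn)) hB
  have hmain : ∀ n ∈ S, ‖(∑ u ∈ U n, (stairRun L κ A ((dot n v).toNat * B)
        ((u : ℝ) / q + (dot n v).toNat * B * β) (zeta (c n) (G n u))).sum N k) -
      (Amp : ℂ) * (starRingEnd ℂ) (cp n * e (∑ j, n j * θ' j))‖ ≤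
        ∑ _u ∈ U n, √((dot n v).toNat * B) * err := by
    intro n hn
    set om : ℝ := ((dot n v).toNat : ℝ) * B with hom
    have hph : e (∑ j, n j * θ' j) =
        e (∑ j, n j * θ k j) * e (k * (om * β) - om * N * Ψ) := by
      rw [← e_add]
      congr 1
      have hd : ((dot n v).toNat : ℝ) = ∑ j, (n j : ℝ) * v j := by
        rw [← Int.cast_natCast (R := ℝ), Int.toNat_of_nonneg (hv n hn).le, dot]
        push_cast
        rfl
      rw [hom, hd]
      simp only [hθ', hw, mul_add, sum_add_distrib, mul_sum, sum_mul, ← sum_sub_distrib]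
      congr 1
      exact sum_congr rfl fun j _ => by ring
    have heq : (Amp : ℂ) * (starRingEnd ℂ) (cp n * e (∑ j, n j * θ' j)) =
        ∑ u ∈ U n, (√om : ℂ) * e (zeta (c n) (G n u) - k * ((u : ℝ) / q + om * β)) *
          (fc * (Amp : ℂ) * e (om * N * Ψ)) := by
      rw [hph, ← hinv n hn, sum_mul, mul_sum, map_sum, mul_sum]
      refine sum_congr rfl fun u hu => ?_
      have h : (√om : ℂ) * fc * e (zeta (c n) (G n u)) =
          (starRingEnd ℂ) (cp n * G n u) := by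
        have hs : √om = √(om / ρ n) * ‖G n u‖ := by
          rw [← sqrt_sq (norm_nonneg (G n u)), hG n hn u hu, ← sqrt_mul (div_pos (hω n hn)
            (hρ n hn)).le, div_mul_cancel₀ _ (hρ n hn).ne']
        have hc0 : (‖c n‖ : ℂ) ≠ 0 := by simpa using hc n hn
        have hz := e_zeta (c n) (G n u)
        simp only [cp, map_mul, Complex.conj_ofReal, ← hom]
        rw [hs, mul_assoc _ ((starRingEnd ℂ) (c n)), ← map_mul, ← hz]
        push_cast
        field_simp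
      simp only [map_mul, ← e_neg] at h ⊢
      have hcd : e (-(om * N * Ψ)) * e (om * N * Ψ) = 1 := by rw [← e_add, neg_add_cancel, e_zero]
      rw [show zeta (c n) (G n u) - k * ((u : ℝ) / q + om * β) = zeta (c n) (G n u) +
        (-((u : ℝ) * k / q) + (-(k * (om * β) - om * N * Ψ) + -(om * N * Ψ))) by ring,
        e_add, e_add, e_add]
      linear_combination (-((Amp : ℂ) * e (-((u : ℝ) * k / q)) *
        e (-(k * (om * β) - om * N * Ψ)))) * h +
        (-((Amp : ℂ) * (√om : ℂ) * fc * e (zeta (c n) (G n u)) * e (-((u : ℝ) * k / q)) *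
          e (-(k * (om * β) - om * N * Ψ)))) * hcd
    rw [heq, ← sum_sub_distrib]
    refine (norm_sum_le _ _).trans (sum_le_sum fun _ _ => ?_)
    rw [stair_sum _ _ hN (hω n hn) hA hκ, ← mul_sub, norm_mul, norm_mul, norm_e, mul_one,
      Complex.norm_real, Real.norm_eq_abs, abs_of_nonneg (sqrt_nonneg _)]
    exact mul_le_mul_of_nonneg_left (hst n hn (om * N) (by rw [hom])) (sqrt_nonneg _)
  -- the change of the coefficients
  have hcp : ∀ n ∈ S, ‖cp n - c n‖ ≤ δ * ‖c n‖ := by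
    intro n hn
    have ha : 0 < ‖c n‖ := norm_pos_iff.2 (hc n hn)
    set X := ((dot n v).toNat : ℝ) * B / ρ n
    have hX : 0 ≤ X := div_nonneg (hω n hn).le (hρ n hn).le
    rw [show cp n - c n = ((√X / ‖c n‖ - 1 : ℝ) : ℂ) * c n by simp only [cp]; push_cast; ring,
      norm_mul, Complex.norm_real, Real.norm_eq_abs, div_sub_one ha.ne', abs_div, abs_norm,
      div_mul_cancel₀ _ ha.ne']
    have h1 : |√X - ‖c n‖| * (√X + ‖c n‖) ≤ δ * ‖c n‖ ^ 2 := by
      rw [← abs_of_nonneg (show 0 ≤ √X + ‖c n‖ by positivity), ← abs_mul]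
      refine le_trans (le_of_eq ?_) (hnorm n hn)
      congr 1
      nlinarith [sq_sqrt hX]
    nlinarith [abs_nonneg (√X - ‖c n‖), sqrt_nonneg X]
  -- the real part
  have hre : |2 * ((Amp : ℂ) * (starRingEnd ℂ) (∑ n ∈ S, cp n * e (∑ j, n j * θ' j))).re| ≤
      Amp * (1 + 2 * δ * ∑ n ∈ S, ‖c n‖) := by
    rw [Complex.re_ofReal_mul, Complex.conj_re, mul_left_comm, abs_mul, abs_of_nonneg hAmp]
    refine mul_le_mul_of_nonneg_left ?_ hAmp
    have h2 : |(∑ n ∈ S, cp n * e (∑ j, n j * θ' j)).re -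
        (∑ n ∈ S, c n * e (∑ j, n j * θ' j)).re| ≤ δ * ∑ n ∈ S, ‖c n‖ := by
      rw [← Complex.sub_re, ← sum_sub_distrib, mul_sum]
      refine (Complex.abs_re_le_norm _).trans ((norm_sum_le _ _).trans (sum_le_sum fun n hn => ?_))
      rw [← sub_mul, norm_mul, norm_e, mul_one]
      exact hcp n hn
    have h3 := hg θ'
    rw [abs_le] at h2 h3 ⊢
    constructor <;> linarith
  set T := ∑ n ∈ S, ∑ u ∈ U n, (stairRun L κ A ((dot n v).toNat * B)
        ((u : ℝ) / q + (dot n v).toNat * B * β) (zeta (c n) (G n u))).sum N k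
  set W := (Amp : ℂ) * (starRingEnd ℂ) (∑ n ∈ S, cp n * e (∑ j, n j * θ' j)) with hW
  have hTW : ‖T - W‖ ≤ ∑ n ∈ S, ∑ _u ∈ U n, √((dot n v).toNat * B) * err := by
    rw [hW, map_sum, mul_sum, ← sum_sub_distrib]
    exact (norm_sum_le _ _).trans (sum_le_sum hmain)
  have h4 := (Complex.abs_re_le_norm (T - W)).trans hTW
  rw [Complex.sub_re, abs_le] at h4
  rw [abs_le] at hre ⊢
  constructor <;> linarith

end Vale.Agent.P110.Exist.Layout
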