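import Vale.Agent.P110.Exist.Spec
import Vale.Agent.P110.Exist.Basic

/-!
Layout, last step: paths with bounded coefficients give flat polynomials with bounded coefficients.
-/

open Real Finset

namespace Vale.Agent.P110.Exist

/-- What the layout has to deliver: for every `s` and `N0` a chirp path at some `N ≥ N0` whose
coefficients are at most `1 + s` on `[0, ⌈K N⌉)`, with `K ≤ 1 + s` and a negligible tail bound. -/
def PathExistSpec : Prop :=
  ∀ s : ℝ, 0 < s → ∀ N0 : ℕ, ∃ N ≥ N0, ∃ (P : Path) (K δ σ0 : ℝ),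
    0 < δ ∧ 0 < σ0 ∧ 0 < K ∧ K ≤ 1 + s ∧
    (∃ z : ℤ, 2 * (N : ℝ) * P.phi P.J = z) ∧
    (∀ i ≤ P.J, P.kap i ∈ Set.Icc δ (K - δ)) ∧ (∀ i < P.J, σ0 ≤ |P.sigma i|) ∧
    ((P.J : ℝ) + 1) / (σ0 * √N) * (1 + 1 / δ ^ 3) ≤ s ∧
    ∀ k : ℕ, k < ⌈K * N⌉₊ → |P.coef N k| ≤ 1 + s

lemma e_nat_mul (x : ℝ) (j : ℕ) : e ((j : ℝ) * x) = e x ^ j := by
  induction j with
  | zero => simp
  | succ j ih => rw [pow_succ, ← ih, ← e_add]; congr 1; push_cast; ring

lemma e_eq_one_imp {x : ℝ} (h : e x = 1) : ∃ z : ℤ, x = z := by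
  obtain ⟨z, hz⟩ := Complex.exp_eq_one_iff.mp h
  refine ⟨z, ?_⟩
  have h2 := congrArg Complex.im hz
  simp at h2
  have hπ := Real.pi_pos
  nlinarith

/-- Orthogonality of the additive characters modulo `M`. -/
lemma sum_e_grid {M : ℕ} (k l : Fin M) :
    ∑ j ∈ range M, e ((((k : ℕ) : ℝ) - ((l : ℕ) : ℝ)) * ((j : ℝ) / M)) =
      if k = l then (M : ℂ) else 0 := by
  have hM : (0 : ℝ) < M := by exact_mod_cast k.pos
  split_ifs with h
  · subst h; simp
  · have hw : ∀ j : ℕ, e ((((k : ℕ) : ℝ) - ((l : ℕ) : ℝ)) * ((j : ℝ) / M)) =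
        e ((((k : ℕ) : ℝ) - ((l : ℕ) : ℝ)) / M) ^ j := by
      intro j; rw [← e_nat_mul]; congr 1; ring
    simp only [hw]
    have hne : e ((((k : ℕ) : ℝ) - ((l : ℕ) : ℝ)) / M) ≠ 1 := by
      intro h1
      obtain ⟨z, hz⟩ := e_eq_one_imp h1
      rw [div_eq_iff hM.ne'] at hz
      have hk : ((k : ℕ) : ℝ) < M := by exact_mod_cast k.isLt
      have hl : ((l : ℕ) : ℝ) < M := by exact_mod_cast l.isLt
      have hk0 : (0 : ℝ) ≤ ((k : ℕ) : ℝ) := Nat.cast_nonneg _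
      have hl0 : (0 : ℝ) ≤ ((l : ℕ) : ℝ) := Nat.cast_nonneg _
      have h2 : (z : ℝ) < 1 := by nlinarith
      have h3 : (-1 : ℝ) < z := by nlinarith
      have h2' : z < 1 := by exact_mod_cast h2
      have h3' : -1 < z := by exact_mod_cast h3
      have hz0 : z = 0 := by omega
      subst hz0
      simp at hz
      exact h (Fin.ext (by exact_mod_cast (by linarith : ((k : ℕ) : ℝ) = ((l : ℕ) : ℝ))))
    rw [geom_sum_eq hne]
    have : e ((((k : ℕ) : ℝ) - ((l : ℕ) : ℝ)) / M) ^ M = 1 := by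
      rw [← e_nat_mul, mul_div_cancel₀ _ hM.ne']
      have h4 := e_int (((k : ℕ) : ℤ) - ((l : ℕ) : ℤ))
      push_cast at h4 ⊢
      exact h4
    rw [this]; simp

/-- Discrete Parseval identity at `M` equally spaced points. -/
lemma parseval_grid {M : ℕ} (x : Fin M → ℝ) :
    ∑ j ∈ range M, ‖trig x ((j : ℝ) / M)‖ ^ 2 = (M : ℝ) * ∑ k, x k ^ 2 := by
  apply Complex.ofReal_injective
  push_cast
  have key : ∀ j : ℕ, ((‖trig x ((j : ℝ) / M)‖ : ℂ)) ^ 2 =
      ∑ k, ∑ l, (x k : ℂ) * (x l : ℂ) *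
        e ((((k : Fin M) : ℕ) : ℝ) * ((j : ℝ) / M) + -((((l : Fin M) : ℕ) : ℝ) * ((j : ℝ) / M))) := by
    intro j
    rw [← Complex.mul_conj']
    simp only [trig, map_sum, map_mul, Complex.conj_ofReal, Finset.sum_mul_sum]
    refine sum_congr rfl fun k _ => sum_congr rfl fun l _ => ?_
    rw [e_add, e_neg]; ring
  simp only [key]
  rw [sum_comm, mul_sum]
  refine sum_congr rfl fun k _ => ?_
  rw [sum_comm]
  have : ∀ l : Fin M, ∑ j ∈ range M, (x k : ℂ) * (x l : ℂ) *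
      e ((((k : Fin M) : ℕ) : ℝ) * ((j : ℝ) / M) + -((((l : Fin M) : ℕ) : ℝ) * ((j : ℝ) / M))) =
      (x k : ℂ) * (x l : ℂ) * if k = l then (M : ℂ) else 0 := by
    intro l
    rw [← sum_e_grid k l, mul_sum]
    refine sum_congr rfl fun j _ => ?_
    congr 2; ring
  simp only [this, mul_ite, mul_zero, sum_ite_eq, mem_univ, if_true]
  ring

/-- Restricting an absolutely convergent exponential series to `0 ≤ k < M`. -/
lemma norm_tsum_sub_trig_le {f : ℤ → ℝ} (hf : Summable fun k => |f k|) (M : ℕ) (t : ℝ) :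
    ‖(∑' k : ℤ, (f k : ℂ) * e (k * t)) - trig (fun k : Fin M => f (k : ℕ)) t‖ ≤
      ∑' k : ℤ, (if 0 ≤ k ∧ k < M then 0 else |f k|) := by
  have hn : ∀ k : ℤ, ‖(f k : ℂ) * e (k * t)‖ = |f k| := fun k => by simp
  have hs : Summable fun k : ℤ => (f k : ℂ) * e (k * t) :=
    Summable.of_norm (by simpa only [hn] using hf)
  set S : Finset ℤ := (range M).image (fun k : ℕ => (k : ℤ)) with hS
  have hmem : ∀ k : ℤ, k ∈ S ↔ 0 ≤ k ∧ k < M := by
    intro k
    simp only [hS, mem_image, mem_range]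
    constructor
    · rintro ⟨a, ha, rfl⟩; omega
    · rintro ⟨h1, h2⟩; exact ⟨k.toNat, by omega, by omega⟩
  have h1 : trig (fun k : Fin M => f (k : ℕ)) t = ∑ k ∈ S, (f k : ℂ) * e (k * t) := by
    rw [hS, sum_image (fun a _ b _ h => by simpa using h)]
    rw [← Fin.sum_univ_eq_sum_range (fun k => (f (k : ℕ) : ℂ) * e (((k : ℕ) : ℤ) * t))]
    simp [trig]
  set g : ℤ → ℂ := fun k => if k ∈ S then 0 else (f k : ℂ) * e (k * t) with hg
  set u : ℤ → ℂ := fun k => if k ∈ S then (f k : ℂ) * e (k * t) else 0 with hu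
  have hgn : ∀ k, ‖g k‖ = if 0 ≤ k ∧ k < (M : ℤ) then 0 else |f k| := by
    intro k; simp only [hg, hmem]; split_ifs <;> simp
  have hgs : Summable fun k => ‖g k‖ := by
    refine Summable.of_nonneg_of_le (fun k => norm_nonneg _) (fun k => ?_) hf
    rw [hgn]; split_ifs <;> simp
  have hus : Summable u :=
    summable_of_ne_finset_zero (s := S) fun k hk => by simp [hu, hk]
  have hfe : (fun k : ℤ => (f k : ℂ) * e (k * t)) = fun k => u k + g k := by
    funext k; simp only [hu, hg]; split_ifs <;> simp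
  rw [hfe, hus.tsum_add hgs.of_norm, tsum_eq_sum (s := S) (fun k hk => by simp [hu, hk]), h1]
  have : ∑ k ∈ S, u k = ∑ k ∈ S, (f k : ℂ) * e (k * t) :=
    sum_congr rfl fun k hk => by simp [hu, hk]
  rw [this, add_sub_cancel_left]
  refine (norm_tsum_le_tsum_norm hgs).trans (le_of_eq ?_)
  exact tsum_congr hgn

/-- Replacing `√N` by `√M` when `M` is within `4 s N` of `N`. -/
lemma flat_transfer {s M N y : ℝ} (hs : 0 ≤ s) (hs8 : s ≤ 1 / 8) (hMlo : (1 - 4 * s) * N ≤ M)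
    (hMup : M ≤ (1 + 2 * s) * N) (hN : 1 ≤ N) (h5 : (1 - 2 * s) * √N ≤ y) (h6 : y ≤ √N) :
    |y - √M| ≤ 12 * s * √M := by
  have hsN : 0 ≤ s * N := by positivity
  have hM : 0 ≤ M := by nlinarith
  have hN2 : N ≤ 2 * M := by nlinarith
  have hM2 : (√M) ^ 2 = M := Real.sq_sqrt hM
  have hN' : (√N) ^ 2 = N := Real.sq_sqrt (by linarith)
  have hNpos : 0 < √N := Real.sqrt_pos.mpr (by linarith)
  have hMnn : 0 ≤ √M := Real.sqrt_nonneg _
  have hNs2 : √N ≤ 2 * √M := by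
    have h1 : √N ≤ √(2 ^ 2 * M) := Real.sqrt_le_sqrt (by linarith)
    rwa [Real.sqrt_mul (by norm_num), Real.sqrt_sq (by norm_num)] at h1
  have h1 : √M ≤ (1 + 2 * s) * √N := by
    have : √M ≤ √((1 + 2 * s) ^ 2 * N) := Real.sqrt_le_sqrt (by nlinarith)
    rwa [Real.sqrt_mul (sq_nonneg _), Real.sqrt_sq (by linarith)] at this
  have h2 : (1 - 4 * s) * √N ≤ √M := by
    have : √((1 - 4 * s) ^ 2 * N) ≤ √M := Real.sqrt_le_sqrt (by nlinarith)
    rwa [Real.sqrt_mul (sq_nonneg _), Real.sqrt_sq (by linarith)] at this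
  have h3 : s * √N ≤ s * (2 * √M) := mul_le_mul_of_nonneg_left hNs2 hs
  rw [abs_le]
  constructor <;> linarith

/-- Paths with bounded coefficients give bounded flat polynomials. -/
theorem boundedFlat_of_pathExist (hP : PathSpec) (h : PathExistSpec) : BoundedFlatSpec := by
  obtain ⟨C, hC, hP⟩ := hP
  intro δ hδ N0
  set s : ℝ := min (1 / 8) (δ / 12) with hsdef
  have hs : 0 < s := lt_min (by norm_num) (by linarith)
  have hs8 : s ≤ 1 / 8 := min_le_left _ _
  have hsd : 12 * s ≤ δ := by linarith [min_le_right (1 / 8 : ℝ) (δ / 12)]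
  set s' : ℝ := s / (C + 1) with hs'def
  have hs' : 0 < s' := by positivity
  have hs's : s' ≤ s := by rw [hs'def]; exact div_le_self hs.le (by linarith)
  have hCs : C * s' ≤ s := by
    rw [hs'def, mul_div_assoc', div_le_iff₀ (by linarith)]; nlinarith
  obtain ⟨N, hN, P, K, d, σ0, hd, hσ0, hK, hKs, hphase, hkap, hsig, htail, hcoef⟩ :=
    h s' hs' (2 * N0 + ⌈1 / s⌉₊ + 1)
  have hN1 : 1 ≤ N := le_trans (by omega) hN
  have hNr : (1 : ℝ) ≤ N := by exact_mod_cast hN1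
  have hNpos : 0 < N := by omega
  obtain ⟨hsum, hflat, htail'⟩ := hP P N K d σ0 hNpos hd hσ0 hK hphase hkap hsig
  have hN0 : (2 * N0 : ℝ) ≤ N := by
    have : 2 * N0 ≤ N := le_trans (by omega) hN
    exact_mod_cast this
  have hNs : 1 ≤ s * N := by
    have h1 : ⌈1 / s⌉₊ ≤ N := le_trans (by omega) hN
    have h2 : 1 / s ≤ (N : ℝ) := le_trans (Nat.le_ceil _) (by exact_mod_cast h1)
    rw [div_le_iff₀ hs] at h2; linarith
  set M := ⌈K * N⌉₊ with hMdef
  have hMup : (M : ℝ) ≤ (1 + 2 * s) * N := by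
    have h1 : (M : ℝ) < K * N + 1 := Nat.ceil_lt_add_one (by positivity)
    nlinarith
  set x : Fin M → ℝ := fun k => P.coef N ((k : ℕ) : ℤ) / (1 + s) with hx
  have hx1 : ∀ k, |x k| ≤ 1 := by
    intro k
    rw [hx, abs_div, abs_of_pos (by linarith : (0 : ℝ) < 1 + s), div_le_one (by linarith)]
    exact (hcoef k k.isLt).trans (by linarith)
  have htrig : ∀ t, |(1 + s) * ‖trig x t‖ - √(N : ℝ)| ≤ s := by
    intro t
    have h1 : ((1 + s : ℝ) : ℂ) * trig x t =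
        trig (fun k : Fin M => P.coef N ((k : ℕ) : ℤ)) t := by
      simp only [trig, mul_sum, hx]
      refine sum_congr rfl fun k _ => ?_
      have : ((1 + s : ℝ) : ℂ) ≠ 0 := by exact_mod_cast (by linarith : (1 + s : ℝ) ≠ 0)
      rw [Complex.ofReal_div]
      field_simp
    have h2 : (1 + s) * ‖trig x t‖ = ‖trig (fun k : Fin M => P.coef N ((k : ℕ) : ℤ)) t‖ := by
      rw [← h1, norm_mul, Complex.norm_real, Real.norm_eq_abs,
        abs_of_pos (by linarith : (0 : ℝ) < 1 + s)]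
    rw [h2, ← hflat t, abs_sub_comm]
    refine (abs_norm_sub_norm_le _ _).trans ((norm_tsum_sub_trig_le hsum M t).trans ?_)
    refine htail'.trans ?_
    calc C * ((P.J : ℝ) + 1) / (σ0 * √N) * (1 + 1 / d ^ 3)
        = C * (((P.J : ℝ) + 1) / (σ0 * √N) * (1 + 1 / d ^ 3)) := by ring
      _ ≤ C * s' := mul_le_mul_of_nonneg_left htail hC.le
      _ ≤ s := hCs
  have hsq : (√(N : ℝ)) ^ 2 = N := Real.sq_sqrt (by positivity)
  have hsqN : 1 ≤ √(N : ℝ) := Real.one_le_sqrt.mpr hNr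
  have hlo : ∀ t, (1 - 2 * s) * √(N : ℝ) ≤ ‖trig x t‖ := by
    intro t
    have h1 := (abs_le.mp (htrig t)).1
    have h2 : 0 ≤ s * s * √(N : ℝ) := by positivity
    have h3 : s ≤ s * √(N : ℝ) := le_mul_of_one_le_right hs.le hsqN
    nlinarith
  have hhi : ∀ t, ‖trig x t‖ ≤ √(N : ℝ) := by
    intro t
    have h1 := (abs_le.mp (htrig t)).2
    have h3 : s ≤ s * √(N : ℝ) := le_mul_of_one_le_right hs.le hsqN
    nlinarith
  have hMpos : 0 < M := Nat.ceil_pos.mpr (by positivity)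
  have henergy : (1 - 4 * s) * N ≤ ∑ k, x k ^ 2 := by
    have h1 := parseval_grid x
    have h2 : ∑ j ∈ range M, (1 - 4 * s) * (N : ℝ) ≤ ∑ j ∈ range M, ‖trig x ((j : ℝ) / M)‖ ^ 2 := by
      refine sum_le_sum fun j _ => ?_
      have h3 := pow_le_pow_left₀ (mul_nonneg (by linarith) (Real.sqrt_nonneg _))
        (hlo ((j : ℝ) / M)) 2
      rw [mul_pow, hsq] at h3
      have : 0 ≤ 4 * s ^ 2 * (N : ℝ) := by positivity
      nlinarith
    rw [sum_const, card_range, nsmul_eq_mul, h1] at h2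
    exact le_of_mul_le_mul_left h2 (by exact_mod_cast hMpos)
  have hxM : ∑ k, x k ^ 2 ≤ M := by
    refine (sum_le_card_nsmul univ _ 1 fun k _ => ?_).trans (by simp)
    have := hx1 k
    rw [← sq_abs]; nlinarith [abs_nonneg (x k)]
  have hMlo : (1 - 4 * s) * N ≤ M := henergy.trans hxM
  have hNM : (N : ℝ) ≤ 2 * M := by nlinarith
  refine ⟨M, ?_, x, hx1, ?_, fun t => ?_⟩
  · have : (N0 : ℝ) ≤ M := by linarith
    exact_mod_cast this
  · rw [sum_sub_distrib, sum_const, card_univ, Fintype.card_fin, nsmul_eq_mul, mul_one]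
    nlinarith
  · exact le_trans (flat_transfer hs.le hs8 hMlo hMup hNr (hlo t) (hhi t))
      (mul_le_mul_of_nonneg_right hsd (Real.sqrt_nonneg _))

end Vale.Agent.P110.Exist
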