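import Vale.Agent.P110.Exist.Layout.Defs
import Vale.Agent.P110.Exist.Basic

/-!
The cells occupied by the pieces, from the tiling, the moduli and the exponential sum.
-/

open Real Finset

namespace Vale.Agent.P110.Exist.Layout

lemma dot_smul {D : ℕ} (y : ℤ) (n b : Fin D → ℤ) : dot n (fun j => y * b j) = y * dot n b := by
  simp only [dot, mul_sum]
  exact sum_congr rfl fun j _ => by ring

lemma sum_theta {D : ℕ} (n a β b : Fin D → ℤ) (k q0 h : ℝ) :
    ∑ j, (n j : ℝ) * (((a j : ℝ) * k ^ 2 + (β j : ℝ) * k) / q0 + (b j : ℝ) * k / h) =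
      ((dot n a : ℤ) * k ^ 2 + (dot n β : ℤ) * k) / q0 + (dot n b : ℤ) * k / h := by
  simp only [dot, Int.cast_sum, Int.cast_mul, mul_add, add_div, sum_add_distrib, sum_mul, sum_div]
  congr 1
  · congr 1 <;> exact sum_congr rfl fun j _ => by ring
  · exact sum_congr rfl fun j _ => by ring

/-- An interval of residues inside one half of the period stays inside one half of `q`. -/
lemma half_bound {h2 q0 u m s j : ℕ} (hh : 0 < h2) (hu : u = j * (2 * h2) + s)
    (hlt : u < 2 * h2 * q0) (hs : s + m ≤ h2 ∨ (h2 ≤ s ∧ s + m ≤ 2 * h2)) :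
    u + m ≤ h2 * q0 ∨ (h2 * q0 ≤ u ∧ u + m ≤ 2 * h2 * q0) := by
  obtain ⟨K, h1, h2'⟩ : ∃ K, K * h2 ≤ u ∧ u + m ≤ (K + 1) * h2 := by
    rcases hs with hs | ⟨hs1, hs2⟩
    · exact ⟨2 * j, by subst hu; nlinarith, by subst hu; nlinarith⟩
    · exact ⟨2 * j + 1, by subst hu; nlinarith, by subst hu; nlinarith⟩
  have hK : K < 2 * q0 := by nlinarith
  rcases lt_or_ge K q0 with h | h
  · left; nlinarith
  · right; constructor <;> nlinarith

/-- The residue class `t` modulo `d` below `r * d`. -/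
def cls (d r : ℕ) (t : ℤ) : Finset ℕ := (range r).image fun j => (t % (d : ℤ)).toNat + j * d

lemma card_cls {d : ℕ} (hd : 0 < d) (r : ℕ) (t : ℤ) : (cls d r t).card = r := by
  rw [cls, card_image_of_injective _ fun a b hab => ?_, card_range]
  exact Nat.eq_of_mul_eq_mul_right hd (Nat.add_left_cancel hab)

lemma mem_cls {d : ℕ} (hd : 0 < d) (r : ℕ) (t : ℤ) (u : ℕ) :
    u ∈ cls d r t ↔ u < r * d ∧ (u : ℤ) ≡ t [ZMOD (d : ℤ)] := by
  have hd' : (0 : ℤ) < d := by exact_mod_cast hd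
  obtain ⟨T, hT⟩ : ∃ T : ℕ, (T : ℤ) = t % (d : ℤ) :=
    ⟨_, Int.toNat_of_nonneg (Int.emod_nonneg _ hd'.ne')⟩
  have hTd : T < d := by exact_mod_cast (hT ▸ Int.emod_lt_of_pos t hd')
  have e1 : (t % (d : ℤ)).toNat = T := by rw [← hT]; simp
  simp only [cls, mem_image, mem_range, e1]
  constructor
  · rintro ⟨j, hj, rfl⟩
    refine ⟨by nlinarith, ?_⟩
    rw [Int.ModEq]
    push_cast
    rw [Int.add_mul_emod_self_right, hT, Int.emod_emod_of_dvd _ dvd_rfl]
  · rintro ⟨hu, hm⟩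
    refine ⟨u / d, Nat.div_lt_of_lt_mul (by rwa [mul_comm]), ?_⟩
    have h1 : u % d = T := by
      have : ((u % d : ℕ) : ℤ) = T := by push_cast; rw [hT]; exact hm
      exact_mod_cast this
    rw [← h1, Nat.mod_add_div']

/-- The cells. -/
theorem cells (hT : TilingSpec) (hA : ArithSpec) (hG : GaussSpec) : CellsSpec := by
  intro D S c v hD hSne hprim hneg hv hc δ hδ hδ1
  classical
  set S2 : ℝ := ∑ n ∈ S, ‖c n‖ ^ 2 with hS2
  have hpos : ∀ n ∈ S, 0 < ‖c n‖ ^ 2 := fun n hn => by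
    have := norm_pos_iff.2 (hc n hn); positivity
  have hS2pos : 0 < S2 := sum_pos hpos hSne
  obtain ⟨h, A, cN, hh, heven, hhalf, hdis, hcpos, hcinj, hM⟩ :=
    hT D S v hD hSne hprim hneg hv (fun n => ‖c n‖ ^ 2 / S2)
      (fun n hn => div_pos (hpos n hn) hS2pos)
      (by rw [← sum_div, ← hS2, div_self hS2pos.ne']) δ hδ
  obtain ⟨M, a, hM1, hQh, hQQ, hQa, hQco, hβ⟩ := hA D S hprim hneg h hh cN hcpos hcinj
  obtain ⟨Nb, b, r, hbr, hinj, happ⟩ := hM M hM1
  obtain ⟨h2, rfl⟩ : ∃ h2, h = 2 * h2 := even_iff_two_dvd.1 heven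
  obtain ⟨Q, hQdef⟩ : ∃ Q : (Fin D → ℤ) → ℕ, ∀ n, Q n = cN n * M + 1 := ⟨_, fun _ => rfl⟩
  simp only [← hQdef] at hQh hQQ hQa hQco hβ hbr happ
  have hQpos : ∀ n, 0 < Q n := fun n => by rw [hQdef]; omega
  obtain ⟨q0, hq0⟩ : ∃ q0, q0 = ∏ n ∈ S, Q n := ⟨_, rfl⟩
  have hq0pos : 0 < q0 := hq0 ▸ prod_pos fun n _ => hQpos n
  have hQdvd : ∀ n ∈ S, Q n ∣ q0 := fun n hn => hq0 ▸ dvd_prod_of_mem Q hn
  have hco : Nat.Coprime (2 * h2) q0 :=
    hq0 ▸ Nat.Coprime.prod_right fun n hn => (hQh n hn).1.symm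
  obtain ⟨x, y, hxy⟩ : ∃ x y : ℤ, 1 = ((2 * h2 : ℕ) : ℤ) * x + (q0 : ℤ) * y := by
    have h0 := Nat.gcd_eq_gcd_ab (2 * h2) q0
    rw [hco.gcd_eq_one, Nat.cast_one] at h0
    exact ⟨_, _, h0⟩
  choose β hβ' using fun i => hβ (fun n => x * (r i n : ℤ))
  obtain ⟨T, hTdef⟩ : ∃ T : Fin Nb → (Fin D → ℤ) → ℤ, ∀ i n, T i n =
      ((2 * h2 : ℕ) : ℤ) * dot n (β i) + (q0 : ℤ) * (y * dot n (b i)) := ⟨_, fun _ _ => rfl⟩
  obtain ⟨q, hq⟩ : ∃ q, q = 2 * h2 * q0 := ⟨_, rfl⟩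
  have hdpos : ∀ n, 0 < 2 * h2 * Q n := fun n => Nat.mul_pos hh (hQpos n)
  have hmemU : ∀ i, ∀ n ∈ S, ∀ u, u ∈ cls (2 * h2 * Q n) (q0 / Q n) (T i n) ↔
      u < q ∧ (u : ℤ) ≡ T i n [ZMOD ((2 * h2 * Q n : ℕ) : ℤ)] := by
    intro i n hn u
    rw [mem_cls (hdpos n)]
    have : q0 / Q n * (2 * h2 * Q n) = q := by
      rw [mul_left_comm, Nat.div_mul_cancel (hQdvd n hn), hq]
    rw [this]
  have hG' : ∀ i, ∀ n ∈ S, _ := fun i n hn => hG (2 * h2) q0 (Q n) (dot n a) (dot n (β i))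
    (y * dot n (b i)) hh hq0pos (hQdvd n hn) (hQa n hn) (by
      obtain ⟨A', hA'⟩ := hQa n hn
      have hdiv : dot n a / (Q n : ℤ) = A' := by
        rw [hA', Int.mul_ediv_cancel_left _ (by exact_mod_cast (hQpos n).ne')]
      have hrest : q0 / Q n = ∏ n' ∈ S.erase n, Q n' := by
        rw [hq0, ← mul_prod_erase _ _ hn, Nat.mul_div_cancel_left _ (hQpos n)]
      rw [hdiv, hrest, Nat.cast_prod]
      refine IsCoprime.prod_right fun n' hn' => ?_
      obtain ⟨hne, hn'S⟩ := mem_erase.1 hn'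
      refine IsCoprime.mul_left ?_ ?_
      · exact Nat.isCoprime_iff_coprime.2 (Nat.coprime_two_left.2 (hQh n' hn'S).2)
      · have := hQco n' hn'S n hn hne
        rw [hA'] at this
        exact this.of_mul_left_right)
  have hNb : 0 < Nb := by
    obtain ⟨n, hn⟩ := hSne
    rcases Nat.eq_zero_or_pos Nb with h0 | h0
    · exfalso
      have h1 := happ n hn
      simp only [h0, Nat.cast_zero, mul_zero, zero_mul, zero_div, zero_sub, abs_neg] at h1
      have hp := div_pos (hpos n hn) hS2pos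
      rw [abs_of_pos hp] at h1
      nlinarith
    · exact h0
  -- residues of a cell
  have hres : ∀ i, ∀ n ∈ S, ∀ u ∈ cls (2 * h2 * Q n) (q0 / Q n) (T i n),
      u % (2 * h2) = (dot n (b i) % ((2 * h2 : ℕ) : ℤ)).toNat ∧ u % Q n = r i n := by
    intro i n hn u hu
    have hm := ((hmemU i n hn u).1 hu).2
    rw [Nat.cast_mul] at hm
    constructor
    · have h1 : (u : ℤ) ≡ dot n (b i) [ZMOD ((2 * h2 : ℕ) : ℤ)] := by
        refine (Int.ModEq.of_mul_right _ hm).trans ?_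
        refine (Int.modEq_iff_dvd.2 ⟨-dot n (β i) + x * dot n (b i), ?_⟩)
        rw [hTdef]
        linear_combination (dot n (b i)) * hxy
      rw [← h1]
      norm_cast
    · obtain ⟨w, hw⟩ : (Q n : ℤ) ∣ q0 := Int.natCast_dvd_natCast.2 (hQdvd n hn)
      have h1 : (u : ℤ) ≡ (r i n : ℤ) [ZMOD (Q n : ℤ)] := by
        refine (Int.ModEq.of_mul_left _ hm).trans ?_
        obtain ⟨z, hz⟩ := Int.modEq_iff_dvd.1 (hβ' i n hn)
        refine (Int.modEq_iff_dvd.2 ⟨((2 * h2 : ℕ) : ℤ) * z + w * y * (r i n) -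
          w * (y * dot n (b i)), ?_⟩)
        rw [hTdef]
        linear_combination (r i n : ℤ) * hxy + ((2 * h2 : ℕ) : ℤ) * hz +
          ((y : ℤ) * (r i n) - y * dot n (b i)) * hw
      have h3 := (Int.natCast_modEq_iff.1 h1)
      rw [h3, Nat.mod_eq_of_lt (hbr i n hn).2]
  refine ⟨Nb, q, fun i n => cls (2 * h2 * Q n) (q0 / Q n) (T i n),
    fun i n u => gauss (2 * h2) q0 (dot n a) (dot n (β i)) (y * dot n (b i)) u,
    fun n => (Q n : ℝ) / q0,
    fun i k j => ((a j : ℝ) * (k : ℝ) ^ 2 + (β i j : ℝ) * k) / q0 +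
      ((y * b i j : ℤ) : ℝ) * k / ((2 * h2 : ℕ) : ℝ),
    hNb, by rw [hq]; positivity, ⟨h2 * q0, by rw [hq]; ring⟩,
    fun n _ => by have := hQpos n; positivity, ?_, ?_, ?_, ?_, ?_, ?_⟩
  · -- no piece crosses `q / 2`
    intro i n hn u hu
    obtain ⟨hs, -⟩ := hres i n hn u hu
    have hA1 := hhalf n hn _ (hbr i n hn).1
    rw [← hs, Nat.mul_div_cancel_left h2 two_pos] at hA1
    have hlt := ((hmemU i n hn u).1 hu).1
    rw [hq] at hlt ⊢
    rw [show 2 * h2 * q0 / 2 = h2 * q0 by rw [mul_assoc]; simp]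
    exact half_bound (by omega) (Nat.div_add_mod' u (2 * h2)).symm hlt hA1
  · -- disjointness
    intro i i' n hn n' hn' u hu u' hu' l hl l' hl'
    obtain ⟨hs, hr⟩ := hres i n hn u hu
    obtain ⟨hs', hr'⟩ := hres i' n' hn' u' hu'
    have hA1 := hhalf n hn _ (hbr i n hn).1
    have hA2 := hhalf n' hn' _ (hbr i' n' hn').1
    have key := hdis n hn n' hn' _ (hbr i n hn).1 _ (hbr i' n' hn').1 l hl l' hl'
    rw [← hs] at hA1 key
    rw [← hs'] at hA2 key
    have hb1 : u % (2 * h2) + l < 2 * h2 := by omega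
    have hb2 : u' % (2 * h2) + l' < 2 * h2 := by omega
    constructor
    · intro heq
      have h3 : u % (2 * h2) + l = u' % (2 * h2) + l' := by
        rw [← Nat.mod_eq_of_lt hb1, ← Nat.mod_eq_of_lt hb2, Nat.mod_add_mod, Nat.mod_add_mod,
          heq]
      obtain ⟨rfl, hseq⟩ := key.1 h3
      have huu : u = u' := by omega
      subst huu
      refine ⟨hinj i i' n hn ?_ (hr.symm.trans hr'), rfl, rfl⟩
      have hh' : (0 : ℤ) < ((2 * h2 : ℕ) : ℤ) := by exact_mod_cast hh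
      have e1 := Int.toNat_of_nonneg (Int.emod_nonneg (dot n (b i)) hh'.ne')
      have e2 := Int.toNat_of_nonneg (Int.emod_nonneg (dot n (b i')) hh'.ne')
      rw [← hs] at e1
      rw [← hs'] at e2
      exact e1.symm.trans e2
    · intro heq
      apply key.2
      set s := u % (2 * h2) with hsdef
      set s' := u' % (2 * h2) with hsdef'
      have e1 : u = s + 2 * h2 * (u / (2 * h2)) := (Nat.mod_add_div u (2 * h2)).symm
      have e2 : u' = s' + 2 * h2 * (u' / (2 * h2)) := (Nat.mod_add_div u' (2 * h2)).symm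
      have h3 : (s + l + (s' + l') + 1) % (2 * h2) = 0 := by
        have h4 : u + l + (u' + l') + 1 = s + l + (s' + l') + 1 +
            2 * h2 * (u / (2 * h2) + u' / (2 * h2)) := by rw [Nat.mul_add]; omega
        rw [← Nat.add_mul_mod_self_left (s + l + (s' + l') + 1) (2 * h2)
          (u / (2 * h2) + u' / (2 * h2)), ← h4, heq, hq, Nat.mul_mod_right]
      obtain ⟨z, hz⟩ := Nat.dvd_of_mod_eq_zero h3
      have hz2 : z < 2 := by nlinarith
      interval_cases z <;> omega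
  · -- magnitude
    intro i n hn u hu
    rw [(hG' i n hn).1 u, if_pos]
    have h0 := ((hmemU i n hn u).1 hu).2
    rwa [hTdef] at h0
  · -- inversion
    intro i n hn k
    rw [sum_theta n a (β i) (fun j => y * b i j), dot_smul, ← (hG' i n hn).2 k, hq]
    refine sum_subset ?_ ?_
    · intro u hu
      have := ((hmemU i n hn u).1 hu).1
      rw [hq] at this
      exact mem_range.2 this
    · intro u hu hu'
      have h0 : ‖gauss (2 * h2) q0 (dot n a) (dot n (β i)) (y * dot n (b i)) u‖ ^ 2 = 0 := by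
        rw [(hG' i n hn).1 u, if_neg]
        intro hh'
        refine hu' ((hmemU i n hn u).2 ⟨by rw [hq]; exact mem_range.1 hu, ?_⟩)
        rwa [hTdef]
      have := norm_eq_zero.1 (pow_eq_zero_iff two_ne_zero |>.1 h0)
      simp only [this, zero_mul]
  · -- weights
    intro n hn
    have h1 := happ n hn
    have hq0R : (0 : ℝ) < q0 := by exact_mod_cast hq0pos
    have hQR : (0 : ℝ) < Q n := by exact_mod_cast hQpos n
    have hhR : (0 : ℝ) < ((2 * h2 : ℕ) : ℝ) := by exact_mod_cast hh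
    have h2eq : (Nb : ℝ) * (2 * S2) * (dot n v).toNat / ((q : ℝ) * ((Q n : ℝ) / q0)) -
        ‖c n‖ ^ 2 = S2 * (2 * (Nb : ℝ) * (dot n v).toNat / (((2 * h2 : ℕ) : ℝ) * (Q n : ℝ)) -
          ‖c n‖ ^ 2 / S2) := by
      rw [show (q : ℝ) = ((2 * h2 : ℕ) : ℝ) * q0 by rw [hq, Nat.cast_mul]]
      field_simp
    dsimp only
    rw [h2eq, abs_mul, abs_of_pos hS2pos]
    calc S2 * |_| ≤ S2 * (δ * (‖c n‖ ^ 2 / S2)) := mul_le_mul_of_nonneg_left h1 hS2pos.le
      _ = δ * ‖c n‖ ^ 2 := by field_simp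
  · -- coverage
    have hq0R : (0 : ℝ) < q0 := by exact_mod_cast hq0pos
    have hterm : ∀ n ∈ S, ∑ i : Fin Nb,
        (((cls (2 * h2 * Q n) (q0 / Q n) (T i n)).card * (dot n v).toNat : ℕ) : ℝ) =
          (q : ℝ) / 2 * (2 * (Nb : ℝ) * (dot n v).toNat / (((2 * h2 : ℕ) : ℝ) * (Q n : ℝ))) := by
      intro n hn
      simp only [card_cls (hdpos n), sum_const, card_univ, Fintype.card_fin, nsmul_eq_mul]
      have hQR : (0 : ℝ) < Q n := by exact_mod_cast hQpos n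
      rw [Nat.cast_mul, Nat.cast_div (hQdvd n hn) hQR.ne', hq, Nat.cast_mul (2 * h2) q0]
      have hhR : (0 : ℝ) < ((2 * h2 : ℕ) : ℝ) := by exact_mod_cast hh
      field_simp
    rw [sum_comm, sum_congr rfl hterm, ← mul_sum]
    have hlow : 1 - δ ≤ ∑ n ∈ S,
        2 * (Nb : ℝ) * (dot n v).toNat / (((2 * h2 : ℕ) : ℝ) * (Q n : ℝ)) := by
      calc 1 - δ = ∑ n ∈ S, (1 - δ) * (‖c n‖ ^ 2 / S2) := by
            rw [← mul_sum, ← sum_div, ← hS2, div_self hS2pos.ne', mul_one]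
        _ ≤ _ := sum_le_sum fun n hn => by
            have := (abs_le.1 (happ n hn)).1
            linarith
    nlinarith [Nat.cast_nonneg (α := ℝ) q]

end Vale.Agent.P110.Exist.Layout
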