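import Vale.Agent.P110.Exist.Layout.Items
import Vale.Agent.P110.Exist.Layout.BlockSum

/-!
The data of a layout, its runs and the path through them.
-/

open Real Finset

namespace Vale.Agent.P110.Exist.Layout

/-- The parameters of a layout on `2 Q` cells: the pieces, the free cells `F`, the staircase
`κ, A` of a block of time length `Lb (1 - ell)`, spacing `d` and width `w` of a free cell. -/
structure Lay (D : ℕ) where
  S : Finset (Fin D → ℤ)
  c : (Fin D → ℤ) → ℂ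
  v : Fin D → ℤ
  Nb : ℕ
  Q : ℕ
  U : Fin Nb → (Fin D → ℤ) → Finset ℕ
  G : Fin Nb → (Fin D → ℤ) → ℕ → ℂ
  F : Finset ℕ
  L : ℕ
  κ : ℕ → ℝ
  A : ℕ → ℝ
  B : ℝ
  Lb : ℝ
  ell : ℝ
  d : ℝ
  w : ℝ
  hv : ∀ n ∈ S, 0 < dot n v
  hQ : 0 < Q
  hU : ∀ i, ∀ n ∈ S, ∀ u ∈ U i n, u + (dot n v).toNat ≤ 2 * Q
  hB : 0 < B
  hBL : B * Lb = 1 / (2 * (Q : ℝ))
  hell : 0 < ell
  hell1 : ell ≤ 1 / 4
  hd : 0 < d
  hw : 0 < w
  hL : 0 < L
  hA : ∀ l < L, 0 < A l
  hκ : ∀ l < L, κ l < κ (l + 1)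
  hκ0 : κ 0 = 0
  hκT : stT κ A L = Lb * (1 - ell)

namespace Lay

variable {D : ℕ} (X : Lay D)

/-- The pieces. -/
abbrev Piece : Type := Σ i : Fin X.Nb, Σ n : ↥X.S, ↥(X.U i n)

/-- The length of a piece in cells. -/
def m (n : Fin D → ℤ) : ℕ := (dot n X.v).toNat

/-- Where block `i` starts on the frequency axis. -/
noncomputable def o (i : Fin X.Nb) : ℝ := X.d + ((i : ℕ) : ℝ) * (X.κ X.L + X.d)

/-- Where free cell `y` starts on the frequency axis. -/
noncomputable def f (y : ↥X.F) : ℝ :=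
  X.d + X.Nb * (X.κ X.L + X.d) + ((X.F.equivFin y : ℕ) : ℝ) * (X.w + X.d)

/-- The top of the frequencies of the items. -/
noncomputable def kp : ℝ := X.d + X.Nb * (X.κ X.L + X.d) + X.F.card * (X.w + X.d)

/-- The forward run of a piece. -/
noncomputable def fwd (i : Fin X.Nb) (n : Fin D → ℤ) (u : ℕ) : Run :=
  stairRun X.L (fun l => X.o i + X.κ l) X.A (X.m n * X.B)
    ((u : ℝ) / (2 * (X.Q : ℝ)) + X.m n * X.B * (X.ell * X.Lb / 2)) (zeta (X.c n) (X.G i n u))

/-- The run of a free cell. -/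
noncomputable def free (y : ↥X.F) : Run where
  L := 1
  t l := (((y : ℕ) : ℝ) + X.ell / 2) / (2 * (X.Q : ℝ)) + (l : ℝ) * ((1 - X.ell) / (2 * (X.Q : ℝ)))
  kap l := X.f y + (l : ℝ) * X.w
  z := 0

/-- The first cell of an item. -/
def cell : X.Piece ⊕ ↥X.F → ℕ :=
  Sum.elim (fun p => fold X.Q p.2.2 (X.m p.2.1)) Subtype.val

/-- The number of cells of an item. -/
def len : X.Piece ⊕ ↥X.F → ℕ := Sum.elim (fun p => X.m p.2.1) fun _ => 1

/-- The run of an item. -/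
noncomputable def R (N : ℕ) : X.Piece ⊕ ↥X.F → Run :=
  Sum.elim (fun p => if (p.2.2 : ℕ) + X.m p.2.1 ≤ X.Q then X.fwd p.1 p.2.1 p.2.2
    else (X.fwd p.1 p.2.1 p.2.2).rev N) X.free

lemma m_pos {n : Fin D → ℤ} (hn : n ∈ X.S) : 0 < X.m n := by
  have := X.hv n hn; unfold m; omega

lemma mB_pos {n : Fin D → ℤ} (hn : n ∈ X.S) : (0 : ℝ) < X.m n * X.B :=
  mul_pos (by exact_mod_cast X.m_pos hn) X.hB

lemma κ_mono : ∀ l ≤ X.L, 0 ≤ X.κ l ∧ X.κ l ≤ X.κ X.L := by
  have h1 : ∀ j, j ≤ X.L → ∀ l ≤ j, X.κ l ≤ X.κ j := fun j => by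
    induction j with
    | zero => intro _ l hl; rw [Nat.le_zero.1 hl]
    | succ j ih =>
      intro hj l hl
      rcases Nat.lt_or_eq_of_le hl with h | h
      · exact (ih (by omega) l (by omega)).trans (X.hκ j (by omega)).le
      · rw [h]
  exact fun l hl => ⟨X.hκ0 ▸ h1 l hl 0 (Nat.zero_le _), h1 X.L le_rfl l hl⟩

lemma W_nonneg : 0 ≤ X.κ X.L := (X.κ_mono X.L le_rfl).1

lemma d_le_kp : X.d ≤ X.kp := by
  have := X.W_nonneg
  have := X.hd.le
  have := X.hw.le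
  simp only [kp, add_assoc, le_add_iff_nonneg_right]
  positivity

lemma fwd_inc (i : Fin X.Nb) {n : Fin D → ℤ} (hn : n ∈ X.S) (u : ℕ) : ∀ l < X.L,
    (X.fwd i n u).t l < (X.fwd i n u).t (l + 1) ∧
      (X.fwd i n u).kap l < (X.fwd i n u).kap (l + 1) :=
  stair_inc _ _ (X.mB_pos hn) X.hA fun l hl => by linarith [X.hκ l hl]

lemma fwd_ends (i : Fin X.Nb) (n : Fin D → ℤ) (u : ℕ) :
    (X.fwd i n u).t 0 = ((u : ℝ) + X.ell / 2 * X.m n) / (2 * (X.Q : ℝ)) ∧
    (X.fwd i n u).t X.L = ((u : ℝ) + X.m n - X.ell / 2 * X.m n) / (2 * (X.Q : ℝ)) := by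
  have hQ : (X.Q : ℝ) ≠ 0 := by exact_mod_cast X.hQ.ne'
  have hB : X.B = 1 / (2 * (X.Q : ℝ)) / X.Lb := by
    have hLb : X.Lb ≠ 0 := fun h => by
      have h2 := X.hBL
      rw [h, mul_zero] at h2
      have : (0 : ℝ) < 1 / (2 * (X.Q : ℝ)) := by have := X.hQ; positivity
      linarith
    rw [← X.hBL]; field_simp
  have hLb : X.Lb ≠ 0 := fun h => by
    have h2 := X.hB
    rw [hB, h, div_zero] at h2
    exact lt_irrefl 0 h2
  simp only [fwd, stairRun, stT_add_const, X.hκT, show stT X.κ X.A 0 = 0 by simp [stT], hB]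
  constructor <;> · field_simp; ring

/-- **The path through the runs.** -/
theorem exists_path (hPB : PathBuildSpec) {N mx : ℕ} {Cf σ0 : ℝ} (hCf : ∀ y, ‖fresnel y‖ ≤ Cf)
    (hmx1 : 1 ≤ mx) (hmx : ∀ n ∈ X.S, X.m n ≤ mx)
    (hcl : ∀ j, 0 < X.len j ∧ X.cell j + X.len j ≤ X.Q)
    (hcov : ∀ c < X.Q, ∃ j, X.cell j ≤ c ∧ c < X.cell j + X.len j)
    (huniq : ∀ j j' c, X.cell j ≤ c → c < X.cell j + X.len j → X.cell j' ≤ c →
      c < X.cell j' + X.len j' → j = j')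
    (hσA : ∀ l < X.L, σ0 ≤ X.B * X.A l ^ 2)
    (hσw : σ0 ≤ (1 - X.ell) / (2 * (X.Q : ℝ)) / X.w)
    (hN : 8 * (X.Q : ℝ) ≤ N * X.ell * X.d)
    (hσ : σ0 ≤ X.ell / (8 * X.Q * (X.kp + 2 * X.d))) :
    ∃ P : Path, (∃ z : ℤ, 2 * (N : ℝ) * P.phi P.J = z) ∧
      (∀ i ≤ P.J, P.kap i ∈ Set.Icc X.d (X.kp + 2 * X.d)) ∧ (∀ i < P.J, σ0 ≤ |P.sigma i|) ∧
      P.J ≤ X.L * Fintype.card (X.Piece ⊕ ↥X.F) + 2 * (Fintype.card (X.Piece ⊕ ↥X.F) + 1) ∧
      ∀ k : ℤ, ‖(∑ i ∈ range P.J, P.seg N i k) - ∑ j, (X.R N j).sum N k‖ ≤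
        2 * (Fintype.card (X.Piece ⊕ ↥X.F) + 1) *
          (2 * Cf * √(X.ell * mx / (4 * X.Q * X.d))) := by
  classical
  have hQ : (0 : ℝ) < X.Q := by exact_mod_cast X.hQ
  have hκkp : ∀ i : Fin X.Nb, ∀ l ≤ X.L, X.o i + X.κ l ∈ Set.Icc X.d X.kp := fun i l hl => by
    obtain ⟨h1, h2⟩ := X.κ_mono l hl
    have hi : ((i : ℕ) : ℝ) + 1 ≤ X.Nb := by exact_mod_cast i.isLt
    have h3 := mul_le_mul_of_nonneg_right hi (add_nonneg X.W_nonneg X.hd.le)
    have h4 : 0 ≤ ((i : ℕ) : ℝ) * (X.κ X.L + X.d) :=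
      mul_nonneg (Nat.cast_nonneg _) (add_nonneg X.W_nonneg X.hd.le)
    have h5 : 0 ≤ (X.F.card : ℝ) * (X.w + X.d) :=
      mul_nonneg (Nat.cast_nonneg _) (add_nonneg X.hw.le X.hd.le)
    simp only [o, kp]
    constructor <;> linarith [X.hd]
  obtain ⟨P, h1, h2, h3, h4, h5⟩ := hPB _ (X.R N) X.cell X.len X.Q N mx Cf X.d X.ell X.kp σ0
    X.hQ X.hd X.hell (by linarith [X.hell1]) X.d_le_kp hCf
    (fun j => ⟨(hcl j).1, by
      rcases j with p | y
      · exact hmx _ p.2.1.2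
      · exact hmx1, (hcl j).2⟩) hcov huniq
    (fun j => by
      rcases j with p | y
      · obtain ⟨h0, h1⟩ := X.fwd_ends p.1 p.2.1 p.2.2
        simp only [R, cell, len, Sum.elim_inl, fold]
        split_ifs with h
        · exact ⟨h0, h1⟩
        · have hu := X.hU p.1 p.2.1 p.2.1.2 p.2.2 p.2.2.2
          rw [show (dot (p.2.1 : Fin D → ℤ) X.v).toNat = X.m p.2.1 from rfl] at hu
          have hcast : ((2 * X.Q - (p.2.2 : ℕ) - X.m p.2.1 : ℕ) : ℝ) =
              2 * X.Q - ((p.2.2 : ℕ) : ℝ) - X.m p.2.1 := by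
            rw [Nat.cast_sub (by omega), Nat.cast_sub (by omega)]
            push_cast; ring
          simp only [Run.rev, Nat.sub_zero, Nat.sub_self,
            show (X.fwd p.1 p.2.1 p.2.2).L = X.L from rfl, hcast, h0, h1]
          constructor <;> (field_simp; ring)
      · simp only [R, cell, len, Sum.elim_inr, free, Nat.cast_zero, Nat.cast_one, zero_mul,
          add_zero, one_mul, mul_one]
        exact ⟨trivial, by ring⟩)
    (fun j => by
      rcases j with p | y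
      · have hinc := X.fwd_inc p.1 p.2.1.2 (p.2.2 : ℕ)
        have hsl : ∀ l < X.L, σ0 ≤ |((X.fwd p.1 p.2.1 p.2.2).t (l + 1) -
            (X.fwd p.1 p.2.1 p.2.2).t l) / ((X.fwd p.1 p.2.1 p.2.2).kap (l + 1) -
            (X.fwd p.1 p.2.1 p.2.2).kap l)| := fun l hl => by
          simp only [fwd]
          rw [stair_slope _ _ (by linarith [X.hκ l hl]),
            abs_of_pos (mul_pos (X.mB_pos p.2.1.2) (pow_pos (X.hA l hl) 2))]
          refine (hσA l hl).trans (mul_le_mul_of_nonneg_right ?_ (sq_nonneg _))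
          exact le_mul_of_one_le_left X.hB.le (by exact_mod_cast X.m_pos p.2.1.2)
        simp only [R, Sum.elim_inl]
        split_ifs with h
        · exact fun l hl => ⟨(hinc l hl).1, (hinc l hl).2.ne, hsl l hl⟩
        · intro l hl
          change l < X.L at hl
          have hl' : X.L - (l + 1) < X.L := by omega
          have e : X.L - (l + 1) + 1 = X.L - l := by omega
          obtain ⟨h1, h2⟩ := hinc _ hl'
          have h3 := hsl _ hl'
          rw [e] at h1 h2 h3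
          simp only [Run.rev, show (X.fwd p.1 p.2.1 p.2.2).L = X.L from rfl]
          refine ⟨by linarith, h2.ne', h3.trans_eq ?_⟩
          rw [← abs_neg, ← div_neg, neg_sub, sub_sub_sub_cancel_left]
      · intro l hl
        obtain rfl : l = 0 := Nat.lt_one_iff.1 hl
        simp only [R, Sum.elim_inr, free, Nat.cast_zero, Nat.cast_one, zero_mul, add_zero,
          one_mul, zero_add, add_sub_cancel_left]
        have h1 : 0 < (1 - X.ell) / (2 * (X.Q : ℝ)) := div_pos (by linarith [X.hell1]) (by positivity)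
        refine ⟨by linarith, by linarith [X.hw], ?_⟩
        rwa [abs_of_pos (div_pos h1 X.hw)])
    (fun j => by
      rcases j with p | y
      · simp only [R, Sum.elim_inl]
        split_ifs with h
        · exact fun l hl => hκkp _ l hl
        · exact fun l _ => hκkp _ (X.L - l) (Nat.sub_le _ _)
      · intro l hl
        have hl' : (l : ℝ) ≤ 1 := by exact_mod_cast (show l ≤ 1 from hl)
        have hx : ((X.F.equivFin y : ℕ) : ℝ) + 1 ≤ X.F.card := by
          exact_mod_cast (X.F.equivFin y).isLt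
        have h1 := mul_le_mul_of_nonneg_right hx (add_nonneg X.hw.le X.hd.le)
        have h2 := mul_le_mul_of_nonneg_right hl' X.hw.le
        have h4 : 0 ≤ ((X.F.equivFin y : ℕ) : ℝ) * (X.w + X.d) :=
          mul_nonneg (Nat.cast_nonneg _) (add_nonneg X.hw.le X.hd.le)
        have h5 : 0 ≤ (l : ℝ) * X.w := mul_nonneg (Nat.cast_nonneg _) X.hw.le
        have h6 : 0 ≤ (X.Nb : ℝ) * (X.κ X.L + X.d) :=
          mul_nonneg (Nat.cast_nonneg _) (add_nonneg X.W_nonneg X.hd.le)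
        simp only [R, Sum.elim_inr, free, f, kp]
        constructor <;> linarith [X.hd])
    hN hσ
  refine ⟨P, h1, h2, h3, h4.trans (Nat.add_le_add_right ?_ _), h5⟩
  refine (sum_le_sum (g := fun _ => X.L) fun j _ => ?_).trans_eq ?_
  · rcases j with p | y
    · simp only [R, Sum.elim_inl]; split_ifs <;> exact le_rfl
    · exact X.hL
  · rw [sum_const, card_univ, smul_eq_mul, mul_comm]

end Lay

end Vale.Agent.P110.Exist.Layout
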