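import Vale.Agent.P110.Exist.Layout.Stair

/-!
The items of the layout: pieces folded into `[0, 1/2]` and the cells that stay free.
-/

open Real Finset

namespace Vale.Agent.P110.Exist.Layout

/-- The first cell in `[0, Q)` of a piece that starts at `u` mod `2 Q`. -/
def fold (Q u m : ℕ) : ℕ := if u + m ≤ Q then u else 2 * Q - u - m

/-- The free cells. -/
theorem exists_free {α : Type} [Fintype α] (u m : α → ℕ) (Q : ℕ) (hm : ∀ p, 0 < m p)
    (hcr : ∀ p, u p + m p ≤ Q ∨ (Q ≤ u p ∧ u p + m p ≤ 2 * Q))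
    (hdis : ∀ p p', ∀ l < m p, ∀ l' < m p', (u p + l = u p' + l' → p = p') ∧
      u p + l + (u p' + l') + 1 ≠ 2 * Q) :
    ∃ F : Finset ℕ, F.card + ∑ p, m p = Q ∧
      let cell : α ⊕ F → ℕ := Sum.elim (fun p => fold Q (u p) (m p)) Subtype.val
      let len : α ⊕ F → ℕ := Sum.elim m fun _ => 1
      (∀ j, 0 < len j ∧ cell j + len j ≤ Q) ∧
      (∀ c < Q, ∃ j, cell j ≤ c ∧ c < cell j + len j) ∧
      ∀ j j' c, cell j ≤ c → c < cell j + len j → cell j' ≤ c → c < cell j' + len j' → j = j' := by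
  classical
  set a : α → ℕ := fun p => fold Q (u p) (m p) with ha
  have hle : ∀ p, a p + m p ≤ Q := fun p => by
    rcases hcr p with h | h <;> simp only [ha, fold] <;> split_ifs <;> omega
  have huniq : ∀ p p' c, a p ≤ c → c < a p + m p → a p' ≤ c → c < a p' + m p' → p = p' := by
    intro p p' c h1 h2 h3 h4
    have hp := hm p
    have hp' := hm p'
    simp only [ha, fold] at h1 h2 h3 h4
    rcases hcr p with h | h <;> rcases hcr p' with h' | h'
    · rw [if_pos h] at h1 h2
      rw [if_pos h'] at h3 h4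
      exact (hdis p p' (c - u p) (by omega) (c - u p') (by omega)).1 (by omega)
    · rw [if_pos h] at h1 h2
      rw [if_neg (by omega)] at h3 h4
      exact absurd (by omega)
        (hdis p p' (c - u p) (by omega) (2 * Q - 1 - u p' - c) (by omega)).2
    · rw [if_neg (by omega)] at h1 h2
      rw [if_pos h'] at h3 h4
      exact absurd (by omega)
        (hdis p p' (2 * Q - 1 - u p - c) (by omega) (c - u p') (by omega)).2
    · rw [if_neg (by omega)] at h1 h2 h3 h4
      exact (hdis p p' (2 * Q - 1 - u p - c) (by omega) (2 * Q - 1 - u p' - c) (by omega)).1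
        (by omega)
  set Occ := (univ : Finset α).biUnion fun p => Finset.Ico (a p) (a p + m p)
  have hOcc : Occ ⊆ range Q := fun c hc => by
    simp only [Occ, mem_biUnion, Finset.mem_Ico] at hc
    obtain ⟨p, -, hp⟩ := hc
    have := hle p
    exact mem_range.2 (by omega)
  have hcard : Occ.card = ∑ p, m p := by
    rw [card_biUnion fun p _ p' _ hne => Finset.disjoint_left.2 fun c hc hc' => by
      rw [Finset.mem_Ico] at hc hc'
      exact hne (huniq p p' c hc.1 hc.2 hc'.1 hc'.2)]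
    simp
  refine ⟨range Q \ Occ, ?_, ?_, ?_, ?_⟩
  · rw [card_sdiff, inter_eq_left.2 hOcc, card_range, hcard]
    have := card_le_card hOcc
    rw [card_range, hcard] at this
    omega
  · rintro (p | ⟨c, hc⟩)
    · exact ⟨hm p, hle p⟩
    · exact ⟨Nat.one_pos, mem_range.1 (mem_sdiff.1 hc).1⟩
  · intro c hc
    by_cases h : c ∈ Occ
    · simp only [Occ, mem_biUnion, Finset.mem_Ico] at h
      obtain ⟨p, -, hp⟩ := h
      exact ⟨Sum.inl p, hp⟩
    · exact ⟨Sum.inr ⟨c, mem_sdiff.2 ⟨mem_range.2 hc, h⟩⟩, le_rfl, Nat.lt_succ_self c⟩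
  · have hmix : ∀ p (c' : ↥(range Q \ Occ)) c, a p ≤ c → c < a p + m p →
        (c' : ℕ) ≤ c → c < (c' : ℕ) + 1 → False := fun p c' c h1 h2 h3 h4 => by
      refine (mem_sdiff.1 c'.2).2 ?_
      simp only [Occ, mem_biUnion, Finset.mem_Ico]
      exact ⟨p, mem_univ _, by omega⟩
    rintro (p | c1) (p' | c2) c h1 h2 h3 h4 <;> simp only [Sum.elim_inl, Sum.elim_inr] at h1 h2 h3 h4
    · rw [huniq p p' c h1 h2 h3 h4]
    · exact (hmix p c2 c h1 h2 h3 h4).elim
    · exact (hmix p' c1 c h3 h4 h1 h2).elim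
    · exact congrArg Sum.inr (Subtype.ext (by omega))

/-- A symmetric set, folded to its positive half. -/
lemma sum_half {D : ℕ} {S : Finset (Fin D → ℤ)} (v : Fin D → ℤ) (hsym : ∀ n ∈ S, -n ∈ S)
    (hv : ∀ n ∈ S, dot n v ≠ 0) {M : Type*} [AddCommMonoid M] (f : (Fin D → ℤ) → M) :
    ∑ n ∈ S, f n = ∑ n ∈ S.filter (0 < dot · v), (f n + f (-n)) := by
  have hneg : ∀ n : Fin D → ℤ, dot (-n) v = -dot n v := fun n => by simp [dot]
  rw [sum_add_distrib, ← sum_filter_add_sum_filter_not S (0 < dot · v) f]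
  congr 1
  refine sum_bij' (fun n _ => -n) (fun n _ => -n) ?_ ?_ (fun n _ => neg_neg n) (fun n _ => neg_neg n)
    (fun n _ => by rw [neg_neg])
  · intro n hn
    rw [mem_filter] at hn ⊢
    exact ⟨hsym n hn.1, by rw [hneg]; have := hv n hn.1; omega⟩
  · intro n hn
    rw [mem_filter] at hn ⊢
    exact ⟨hsym n hn.1, by rw [hneg]; omega⟩

end Vale.Agent.P110.Exist.Layout
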