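import Vale.Agent.P110.Exist.Layout.Sum
import Vale.Agent.P110.Exist.Layout.Bound

/-!
The layout: the specifications give a chirp path with coefficients at most `1 + s`.
-/

open Real Finset

namespace Vale.Agent.P110.Exist.Layout

/-- A square root scaled down. -/
lemma le_of_sqrt_scale {M a b : ℝ} (hM : 0 ≤ M) (hb : 0 < b) (h : a ≤ (b / (M + 1)) ^ 2) :
    M * √a ≤ b := by
  have h1 : √a ≤ b / (M + 1) := (sqrt_le_left (by positivity)).2 h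
  refine (mul_le_mul_of_nonneg_left h1 hM).trans ?_
  rw [mul_div_assoc', div_le_iff₀ (by positivity)]
  nlinarith

/-- `M / √N` is small for large `N`. -/
lemma le_of_div_sqrt {M b r : ℝ} (hb : 0 < b) (hM : 0 ≤ M) (h : ((M + 1) / b) ^ 2 ≤ r) :
    M / √r ≤ b := by
  have h1 : (M + 1) / b ≤ √r := le_sqrt_of_sq_le h
  have h2 : 0 < √r := (show 0 < (M + 1) / b by positivity).trans_le h1
  rw [div_le_iff₀ h2]
  rw [div_le_iff₀ hb] at h1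
  linarith

/-- The staircase of the blocks, with its sum against the amplitude profile. -/
lemma exists_stairs (hS : StaircaseSpec) : ∃ Cs : ℝ, 0 < Cs ∧ ∀ (n : ℕ), 1 ≤ n → ∀ T η : ℝ,
    0 < η → η < T → ∃ (κ A : ℕ → ℝ) (gap : ℝ), 0 < gap ∧ κ 0 = 0 ∧ stT κ A (2 * n + 1) = T ∧
      κ (2 * n + 1) ≤ T + η ∧ (∀ l < 2 * n + 1, κ l < κ (l + 1)) ∧
      (∀ l < 2 * n + 1, 0 < A l ∧ 1 / ((n : ℝ) + 1) ≤ A l) ∧
      ∀ o : ℝ, ∃ Amp Ψ : ℝ → ℝ, (∀ x, 0 ≤ Amp x ∧ Amp x ≤ 1) ∧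
        (∀ x, (x < o ∨ o + κ (2 * n + 1) < x) → Amp x = 0) ∧ ∀ s : ℝ, 0 < s → ∀ x : ℝ,
          ‖∑ l ∈ range (2 * n + 1), (A l : ℂ) *
              e (s * (stP (fun l => o + κ l) A l - x * stT (fun l => o + κ l) A l -
                A l ^ 2 * (o + κ l - x) ^ 2 / 2)) *
              (fresnel (A l * √s * (o + κ (l + 1) - x)) - fresnel (A l * √s * (o + κ l - x))) -
            fc * (Amp x : ℂ) * e (s * Ψ x)‖ ≤
            Cs * √(1 / ((n : ℝ) + 1)) + Cs * ((2 * n + 1 : ℕ) + 1) / (√s * gap) := by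
  obtain ⟨Cs, hCs, h⟩ := hS
  refine ⟨Cs, hCs, fun n hn T η he heT => ?_⟩
  obtain ⟨κ, A, gap, hgap, hκ0, hκT, hκW, hκg, hA, hAs, hA0, hA1⟩ := exists_profile n hn he heT
  have hA' : ∀ l < 2 * n + 1, 0 < A l := fun l hl => lt_of_lt_of_le (by positivity) (hA l hl).1
  refine ⟨κ, A, gap, hgap, hκ0, hκT, hκW, fun l hl => by linarith [hκg l hl],
    fun l hl => ⟨hA' l hl, (hA l hl).1⟩, fun o => ?_⟩
  obtain ⟨Amp, Ψ, h1, h2, h3⟩ := h (2 * n + 1) (fun l => o + κ l) A (1 / ((n : ℝ) + 1)) gap hgap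
    (by positivity) (fun l hl => by linarith [hκg l hl]) (fun l hl => ⟨hA' l hl, (hA l hl).2⟩)
    (fun l hl => hAs l hl) fun _ => ⟨hA0, hA1⟩
  exact ⟨Amp, Ψ, h1, fun x hx => h2 x (by rwa [hκ0, add_zero]), h3⟩

/-- The waveform, folded to its positive half. -/
lemma exists_half (hW : WaveSpec) {ε : ℝ} (hε : 0 < ε) (hε1 : ε < 1) :
    ∃ (D : ℕ) (S : Finset (Fin D → ℤ)) (c : (Fin D → ℤ) → ℂ) (v : Fin D → ℤ),
      2 ≤ D ∧ S.Nonempty ∧ (∀ n ∈ S, ∃ y, dot n y = 1) ∧ (∀ n ∈ S, -n ∉ S) ∧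
      (∀ n ∈ S, 0 < dot n v) ∧ (∀ n ∈ S, c n ≠ 0) ∧
      1 - ε ≤ 2 * ∑ n ∈ S, ‖c n‖ ^ 2 ∧
      ∀ θ : Fin D → ℝ, |2 * (∑ n ∈ S, c n * e (∑ j, n j * θ j)).re| ≤ 1 := by
  obtain ⟨D, S, c, v, hD, hsym, hprim, hv0, hc, hg, hen⟩ := hW ε hε
  have hSp : ∀ n ∈ S.filter (0 < dot · v), n ∈ S ∧ 0 < dot n v := fun n hn => mem_filter.1 hn
  have hneg : ∀ n : Fin D → ℤ, dot (-n) v = -dot n v := fun n => by simp [dot]
  have hEn : 1 - ε ≤ 2 * ∑ n ∈ S.filter (0 < dot · v), ‖c n‖ ^ 2 := by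
    refine hen.trans_eq ?_
    rw [sum_half v hsym hv0, mul_sum]
    refine sum_congr rfl fun n hn => ?_
    rw [(hc n (hSp n hn).1).2, Complex.norm_conj]; ring
  refine ⟨D, S.filter (0 < dot · v), c, v, hD, ?_, fun n hn => hprim n (hSp n hn).1,
    fun n hn hn' => ?_, fun n hn => (hSp n hn).2, fun n hn => (hc n (hSp n hn).1).1, hEn,
    fun θ => ?_⟩
  · by_contra h
    rw [not_nonempty_iff_eq_empty] at h
    rw [h, sum_empty, mul_zero] at hEn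
    linarith
  · have h1 := (hSp n hn).2
    have h2 := (hSp _ hn').2
    rw [hneg] at h2
    omega
  · have h := hg θ
    rw [sum_half v hsym hv0] at h
    have e1 : ∀ n ∈ S.filter (0 < dot · v),
        c n * e (∑ j, n j * θ j) + c (-n) * e (∑ j, ((-n) j : ℤ) * θ j) =
          ((2 * (c n * e (∑ j, n j * θ j)).re : ℝ) : ℂ) := fun n hn => by
      have e2 : ∑ j, (((-n) j : ℤ) : ℝ) * θ j = -∑ j, (n j : ℝ) * θ j := by
        simp [← sum_neg_distrib]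
      rw [(hc n (hSp n hn).1).2, e2, e_neg, ← map_mul, Complex.add_conj]
    rw [sum_congr rfl e1, ← Complex.ofReal_sum, Complex.norm_real, Real.norm_eq_abs, ← mul_sum,
      ← Complex.re_sum] at h
    exact h

/-- The budget of the frequency axis. -/
lemma kp_le {Nb Q Fc W w Lb En ε d δT Kc : ℝ} (hNb : 0 < Nb) (hQ : 0 < Q) (hd : 0 < d)
    (hFc : Fc ≤ δT * Q) (hFQ : Fc ≤ Q) (hW : W ≤ Lb * (1 + ε))
    (hw0 : 0 ≤ w) (hw : w = Kc / (2 * Q)) (hK : δT * Kc ≤ ε) (hLb : Lb = 1 / (Nb * En))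
    (hEn : 1 - ε ≤ En) (hε : 0 < ε) (hε1 : 16 * ε ≤ 1) (hdd : d * (Nb + 2 * Q + 3) = ε) :
    d + Nb * (W + d) + Fc * (w + d) + 3 * d ≤ 1 + 8 * ε := by
  have hEn0 : 0 < En := by linarith
  have hNW : Nb * W ≤ (1 + ε) / En := by
    refine (mul_le_mul_of_nonneg_left hW hNb.le).trans_eq ?_
    rw [hLb]; field_simp
  have hFw : Fc * w ≤ ε / 2 := by
    refine (mul_le_mul_of_nonneg_right hFc hw0).trans ?_
    rw [hw, show δT * Q * (Kc / (2 * Q)) = δT * Kc / 2 by field_simp]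
    linarith
  have h1 : (1 + ε) / En ≤ 1 + 3 * ε := by
    rw [div_le_iff₀ hEn0]; nlinarith
  have h2 : Fc * d ≤ Q * d := mul_le_mul_of_nonneg_right hFQ hd.le
  nlinarith

/-- The path of a layout with small parameters. -/
theorem path_of_lay (hPB : PathBuildSpec) (hR : RevSpec) {D : ℕ} (X : Lay D) {mx : ℕ}
    {Cf Cs gap r ε s δT : ℝ} {ρ : (Fin D → ℤ) → ℝ} {θ : Fin X.Nb → ℤ → Fin D → ℝ} (N0 : ℕ)
    (hε : 0 < ε) (hεs : 16 * ε ≤ s) (hCf : 0 < Cf) (hE : ∀ y, ‖fresnel y‖ ≤ Cf)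
    (hrem : ∀ y, ‖fresnelRem y‖ ≤ Cf / (1 + |y|)) (hCs : 0 < Cs) (hgap : 0 < gap) (hr : 0 < r)
    (hAr : ∀ l < X.L, r ≤ X.A l)
    (hamp : ∀ o : ℝ, ∃ Amp Ψ : ℝ → ℝ, (∀ x, 0 ≤ Amp x ∧ Amp x ≤ 1) ∧
      (∀ x, (x < o ∨ o + X.κ X.L < x) → Amp x = 0) ∧ ∀ t : ℝ, 0 < t → ∀ x : ℝ,
        ‖∑ l ∈ range X.L, (X.A l : ℂ) *
            e (t * (stP (fun l => o + X.κ l) X.A l - x * stT (fun l => o + X.κ l) X.A l -
              X.A l ^ 2 * (o + X.κ l - x) ^ 2 / 2)) *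
            (fresnel (X.A l * √t * (o + X.κ (l + 1) - x)) -
              fresnel (X.A l * √t * (o + X.κ l - x))) -
          fc * (Amp x : ℂ) * e (t * Ψ x)‖ ≤ Cs * √r + Cs * ((X.L : ℕ) + 1) / (√t * gap))
    (hmx1 : 1 ≤ mx) (hmx : ∀ n ∈ X.S, X.m n ≤ mx)
    (hcl : ∀ j, 0 < X.len j ∧ X.cell j + X.len j ≤ X.Q)
    (hcov : ∀ c < X.Q, ∃ j, X.cell j ≤ c ∧ c < X.cell j + X.len j)
    (huniq : ∀ j j' c, X.cell j ≤ c → c < X.cell j + X.len j → X.cell j' ≤ c →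
      c < X.cell j' + X.len j' → j = j')
    (hcard : Fintype.card (X.Piece ⊕ ↥X.F) ≤ X.Q)
    (hsmall : 2 * X.Q * √(mx * X.B) * Cs * √r ≤ ε)
    (hconn : 8 * ((X.Q : ℝ) + 1) * Cf * √(X.ell * mx / (4 * X.Q * X.d)) ≤ ε)
    (hkp : X.kp + 3 * X.d ≤ 1 + s)
    (hK : 64 * Cf ^ 2 * ((1 - X.ell) / (2 * (X.Q : ℝ))) ≤ X.w)
    (hρ : ∀ n ∈ X.S, 0 < ρ n) (hc : ∀ n ∈ X.S, X.c n ≠ 0)
    (hg : ∀ ϑ : Fin D → ℝ, |2 * (∑ n ∈ X.S, X.c n * e (∑ j, n j * ϑ j)).re| ≤ 1)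
    (hG : ∀ i, ∀ n ∈ X.S, ∀ u ∈ X.U i n, ‖X.G i n u‖ ^ 2 = ρ n)
    (hinv : ∀ i, ∀ n ∈ X.S, ∀ k : ℤ, ∑ u ∈ X.U i n, X.G i n u *
      e ((u : ℝ) * k / (2 * X.Q : ℕ)) = e (∑ j, n j * θ i k j))
    (hnorm : ∀ n ∈ X.S, |(X.m n : ℝ) * X.B / ρ n - ‖X.c n‖ ^ 2| ≤ δT * ‖X.c n‖ ^ 2)
    (hδc : 2 * δT * ∑ n ∈ X.S, ‖X.c n‖ ≤ ε) :
    ∃ N ≥ N0, ∃ (P : Path) (K δ σ0 : ℝ),
      0 < δ ∧ 0 < σ0 ∧ 0 < K ∧ K ≤ 1 + s ∧
      (∃ z : ℤ, 2 * (N : ℝ) * P.phi P.J = z) ∧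
      (∀ i ≤ P.J, P.kap i ∈ Set.Icc δ (K - δ)) ∧ (∀ i < P.J, σ0 ≤ |P.sigma i|) ∧
      ((P.J : ℝ) + 1) / (σ0 * √N) * (1 + 1 / δ ^ 3) ≤ s ∧
      ∀ k : ℕ, k < ⌈K * N⌉₊ → |P.coef N k| ≤ 1 + s := by
  classical
  have hQpos : (0 : ℝ) < X.Q := by exact_mod_cast X.hQ
  have hB := X.hB
  have hell := X.hell
  have hd := X.hd
  have hdkp := X.d_le_kp
  have hFQ : (X.F.card : ℝ) ≤ X.Q := by
    rw [Fintype.card_sum, Fintype.card_coe] at hcard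
    exact_mod_cast (Nat.le_add_left _ _).trans hcard
  have hPQ : (Fintype.card X.Piece : ℝ) ≤ X.Q := by
    rw [Fintype.card_sum] at hcard
    exact_mod_cast (Nat.le_add_right _ _).trans hcard
  choose Amp Ψ hAmp hAmp0 hst using fun i : Fin X.Nb => hamp (X.o i)
  obtain ⟨σ0, hσ0, hσA, hσw, hσ⟩ : ∃ σ0 : ℝ, 0 < σ0 ∧ (∀ l < X.L, σ0 ≤ X.B * X.A l ^ 2) ∧
      σ0 ≤ (1 - X.ell) / (2 * (X.Q : ℝ)) / X.w ∧ σ0 ≤ X.ell / (8 * X.Q * (X.kp + 2 * X.d)) := by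
    have h1 : 0 < (1 - X.ell) / (2 * (X.Q : ℝ)) := div_pos (by linarith [X.hell1]) (by positivity)
    have h2 : 0 < X.kp + 2 * X.d := by linarith
    refine ⟨min (X.B * r ^ 2) (min ((1 - X.ell) / (2 * (X.Q : ℝ)) / X.w)
      (X.ell / (8 * X.Q * (X.kp + 2 * X.d)))),
      lt_min (by positivity) (lt_min (div_pos h1 X.hw) (by positivity)), fun l hl => ?_,
      (min_le_right _ _).trans (min_le_left _ _), (min_le_right _ _).trans (min_le_right _ _)⟩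
    exact (min_le_left _ _).trans (mul_le_mul_of_nonneg_left
      (pow_le_pow_left₀ hr.le (hAr l hl) 2) hB.le)
  -- the length
  set c1 := 2 * X.Q * √(mx * X.B) * Cs * ((X.L : ℕ) + 1) / (√X.B * gap) with hc1
  set c2 := (X.Q : ℝ) * (2 * (2 * Cf)) / (X.d / 3) with hc2
  set c3 := ((X.L : ℝ) * X.Q + 2 * (X.Q + 1) + 1) / σ0 * (1 + 1 / X.d ^ 3) with hc3
  have hc10 : 0 ≤ c1 := by positivity
  have hc20 : 0 ≤ c2 := by positivity
  have hc30 : 0 ≤ c3 := by positivity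
  obtain ⟨N, hN0, hN, hcN, hN8⟩ : ∃ N : ℕ, N0 ≤ N ∧ 0 < N ∧ (c1 + c2 + c3) / √N ≤ ε ∧
      8 * (X.Q : ℝ) ≤ N * X.ell * X.d := by
    refine ⟨N0 + 1 + ⌈((c1 + c2 + c3 + 1) / ε) ^ 2⌉₊ + ⌈(8 * X.Q : ℝ) / (X.ell * X.d)⌉₊, by omega,
      by omega, le_of_div_sqrt hε (by positivity)
        ((Nat.le_ceil _).trans (Nat.cast_le.2 (by omega))), ?_⟩
    have h : (8 * X.Q : ℝ) / (X.ell * X.d) ≤
        (N0 + 1 + ⌈((c1 + c2 + c3 + 1) / ε) ^ 2⌉₊ + ⌈(8 * X.Q : ℝ) / (X.ell * X.d)⌉₊ : ℕ) :=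
      (Nat.le_ceil _).trans (Nat.cast_le.2 (Nat.le_add_left _ _))
    rw [div_le_iff₀ (by positivity)] at h
    linarith
  have hNr : (0 : ℝ) < N := by exact_mod_cast hN
  have hsN : 0 < √(N : ℝ) := sqrt_pos.2 hNr
  obtain ⟨P, hphase, hPk, hPs, hPJ, hPsum⟩ :=
    X.exists_path hPB hE hmx1 hmx hcl hcov huniq hσA hσw hN8 hσ
  refine ⟨N, hN0, P, X.kp + 3 * X.d, X.d, σ0, hd, hσ0, by linarith, hkp, hphase,
    fun i hi => ⟨(hPk i hi).1, by have := (hPk i hi).2; linarith⟩, hPs, ?_, fun k _ => ?_⟩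
  · have hJ : (P.J : ℝ) + 1 ≤ (X.L : ℝ) * X.Q + 2 * (X.Q + 1) + 1 := by
      have h1 : P.J + 1 ≤ X.L * X.Q + 2 * (X.Q + 1) + 1 := by
        have h2 := Nat.mul_le_mul_left X.L hcard
        change P.J ≤ X.L * _ + 2 * (_ + 1) at hPJ
        omega
      exact_mod_cast h1
    calc ((P.J : ℝ) + 1) / (σ0 * √N) * (1 + 1 / X.d ^ 3) ≤
          ((X.L : ℝ) * X.Q + 2 * (X.Q + 1) + 1) / (σ0 * √N) * (1 + 1 / X.d ^ 3) := by gcongr
      _ = c3 / √N := by rw [hc3]; field_simp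
      _ ≤ (c1 + c2 + c3) / √N := by gcongr; linarith
      _ ≤ s := by linarith
  -- the coefficient
  set err := Cs * √r + Cs * ((X.L : ℕ) + 1) / (√(X.B * N) * gap) with herrdef
  have hitems := X.items_bound hR hN (k : ℤ) hCf hE hrem hK
    (ρ := ρ) (θ := θ) (δT := δT) (ε := ε) (err := err)
    (Amp := fun i => Amp i (((k : ℤ) : ℝ) / N)) (Ψ := fun i => Ψ i (((k : ℤ) : ℝ) / N))
    hρ hc hg hG hinv
    hnorm
    hδc hε.le (fun i => hAmp i _) (fun i hi => hAmp0 i _ hi)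
    (fun i n hn t ht => by
      have hmn : (1 : ℝ) ≤ X.m n := by exact_mod_cast X.m_pos hn
      have ht0 : 0 < t := ht ▸ mul_pos (mul_pos (by linarith) hB) hNr
      refine (hst i t ht0 _).trans (add_le_add le_rfl ?_)
      refine div_le_div_of_nonneg_left (by positivity) (by positivity) ?_
      gcongr
      rw [ht]
      exact mul_le_mul_of_nonneg_right (le_mul_of_one_le_left hB.le hmn) hNr.le)
  have herr : ∑ p : X.Piece, 2 * (√(X.m p.2.1 * X.B) * err) ≤ ε + c1 / √N := by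
    have herr0 : 0 ≤ err := by positivity
    refine (sum_le_sum (g := fun _ => 2 * (√(mx * X.B) * err)) fun p _ => ?_).trans ?_
    · gcongr
      exact hmx _ p.2.1.2
    rw [sum_const, card_univ, nsmul_eq_mul]
    calc (Fintype.card X.Piece : ℝ) * (2 * (√(mx * X.B) * err)) ≤ X.Q * (2 * (√(mx * X.B) * err)) := by
          gcongr
      _ = 2 * X.Q * √(mx * X.B) * Cs * √r + c1 / √N := by
          rw [herrdef, hc1, sqrt_mul hB.le]; field_simp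
      _ ≤ ε + c1 / √N := by linarith
  have hfar : (X.F.card : ℝ) * (2 * (2 * Cf / (√(N : ℝ) * (X.d / 3)))) ≤ c2 / √N := by
    refine (mul_le_mul_of_nonneg_right hFQ (by positivity)).trans_eq ?_
    rw [hc2]; field_simp
  have hcoef : |P.coef N (k : ℤ) - 2 * (∑ j, (X.R N j).sum N (k : ℤ)).re| ≤ ε := by
    rw [Path.coef, ← mul_sub, ← Complex.sub_re, abs_mul, abs_two]
    refine (mul_le_mul_of_nonneg_left ((Complex.abs_re_le_norm _).trans (hPsum _)) zero_le_two).trans ?_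
    have h2 : (Fintype.card (X.Piece ⊕ ↥X.F) : ℝ) ≤ X.Q := by exact_mod_cast hcard
    have hX' : 0 ≤ Cf * √(X.ell * mx / (4 * X.Q * X.d)) := by positivity
    show 2 * (2 * ((Fintype.card (X.Piece ⊕ ↥X.F) : ℝ) + 1) *
      (2 * Cf * √(X.ell * mx / (4 * X.Q * X.d)))) ≤ ε
    nlinarith
  have hc' : c1 / √N + c2 / √N ≤ ε := by
    rw [← add_div]
    exact (div_le_div_of_nonneg_right (by linarith) hsN.le).trans hcN
  have := abs_sub_abs_le_abs_sub (P.coef N (k : ℤ)) (2 * (∑ j, (X.R N j).sum N (k : ℤ)).re)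
  change _ ≤ (1 + ε) + _ + (X.F.card : ℝ) * (2 * (2 * Cf / (√(N : ℝ) * (X.d / 3)))) at hitems
  linarith


/-- **The layout.** -/
theorem pathExist (hW : WaveSpec) (hC : CellsSpec) (hF : FresnelSpec) (hS : StaircaseSpec)
    (hPB : PathBuildSpec) (hR : RevSpec) : PathExistSpec := by
  classical
  intro s hs N0
  obtain ⟨Cf, hCf, hE, hrem, -, -, -⟩ := hF
  obtain ⟨Cs, hCs, hstair⟩ := exists_stairs hS
  obtain ⟨ε, hε, hεs, hε1⟩ : ∃ ε : ℝ, 0 < ε ∧ 16 * ε ≤ s ∧ 16 * ε ≤ 1 :=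
    ⟨min s 1 / 16, div_pos (lt_min hs one_pos) (by norm_num), by linarith [min_le_left s 1],
      by linarith [min_le_right s 1]⟩
  obtain ⟨D, S, c, v, hD, hSne, hprim, hanti, hv, hc, hEn, hg⟩ :=
    exists_half hW hε (by linarith)
  set En := 2 * ∑ n ∈ S, ‖c n‖ ^ 2 with hEndef
  have hEn0 : 0 < En := by linarith
  set Csum := ∑ n ∈ S, ‖c n‖
  have hCsum : 0 ≤ Csum := sum_nonneg fun _ _ => norm_nonneg _
  have hKc0 : (0 : ℝ) < 64 * Cf ^ 2 := by positivity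
  obtain ⟨δT, hδT, hδ1, hδc, hδK⟩ : ∃ δT : ℝ, 0 < δT ∧ δT < 1 ∧ 2 * δT * Csum ≤ ε ∧
      δT * (64 * Cf ^ 2) ≤ ε := by
    refine ⟨min (1 / 2) (ε / (2 * Csum + 64 * Cf ^ 2 + 1)), lt_min (by norm_num) (by positivity),
      (min_le_left _ _).trans_lt (by norm_num), ?_, ?_⟩
    all_goals
      have h : min (1 / 2) (ε / (2 * Csum + 64 * Cf ^ 2 + 1)) ≤ ε / (2 * Csum + 64 * Cf ^ 2 + 1) :=
        min_le_right _ _
      rw [le_div_iff₀ (by positivity)] at h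
      have h0 : (0 : ℝ) ≤ min (1 / 2) (ε / (2 * Csum + 64 * Cf ^ 2 + 1)) :=
        le_min (by norm_num) (by positivity)
      nlinarith
  -- the cells
  obtain ⟨Nb, q, U, G, ρ, θ, hNb, hq, hev, hρ, hcr, hdis, hG, hinv, hnorm, hcount⟩ :=
    hC D S c v hD hSne hprim hanti hv hc δT hδT hδ1
  obtain ⟨Q, hqQ⟩ : ∃ Q, q = 2 * Q := hev.two_dvd
  have hQ0 : 0 < Q := by omega
  have hQr : (q : ℝ) = 2 * Q := by rw [hqQ]; push_cast; ring
  have hQpos : (0 : ℝ) < Q := by exact_mod_cast hQ0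
  have hm : ∀ n ∈ S, 0 < (dot n v).toNat := fun n hn => by have := hv n hn; omega
  obtain ⟨mx, hmx1, hmx⟩ : ∃ mx : ℕ, 1 ≤ mx ∧ ∀ n ∈ S, (dot n v).toNat ≤ mx :=
    ⟨S.sup fun n => (dot n v).toNat,
      (hm _ hSne.choose_spec).trans_le (le_sup (f := fun n => (dot n v).toNat) hSne.choose_spec),
      fun n hn => le_sup (f := fun n => (dot n v).toNat) hn⟩
  obtain ⟨F, hFc, hcl, hcov, huniq⟩ := exists_free
    (fun p : Σ i : Fin Nb, Σ n : ↥S, ↥(U i n) => (p.2.2 : ℕ))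
    (fun p => (dot (p.2.1 : Fin D → ℤ) v).toNat) Q (fun p => hm _ p.2.1.2)
    (fun p => by
      have := hcr p.1 p.2.1 p.2.1.2 p.2.2 p.2.2.2
      omega)
    (fun p p' l hl l' hl' => by
      obtain ⟨h1, h2⟩ := hdis p.1 p'.1 p.2.1 p.2.1.2 p'.2.1 p'.2.1.2 p.2.2 p.2.2.2 p'.2.2 p'.2.2.2
        l hl l' hl'
      refine ⟨fun h => ?_, hqQ ▸ h2⟩
      obtain ⟨hi, hn, hu⟩ := h1 h
      obtain ⟨i, ⟨n, hn'⟩, u, hu'⟩ := p
      obtain ⟨i', ⟨n', hn''⟩, u', hu''⟩ := p'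
      dsimp only at hi hn hu
      subst hi hn hu
      rfl)
  -- levels, spacing, margins
  have hNbr : (0 : ℝ) < Nb := by exact_mod_cast hNb
  set B := (Nb : ℝ) * En / q with hBdef
  have hB : 0 < B := by have : (0 : ℝ) < q := (by exact_mod_cast hq); positivity
  set Lb := 1 / ((Nb : ℝ) * En) with hLbdef
  have hLb : 0 < Lb := by positivity
  obtain ⟨n0, hn0, hn0s⟩ : ∃ n0 : ℕ, 1 ≤ n0 ∧
      2 * Q * √(mx * B) * Cs * √(1 / ((n0 : ℝ) + 1)) ≤ ε := by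
    refine ⟨⌈((2 * Q * √(mx * B) * Cs + 1) / ε) ^ 2⌉₊ + 1, Nat.le_add_left 1 _, ?_⟩
    rw [one_div, sqrt_inv, ← div_eq_mul_inv]
    refine le_of_div_sqrt hε (by positivity) ((Nat.le_ceil _).trans ?_)
    push_cast
    linarith
  obtain ⟨d, hd, hdd⟩ : ∃ d : ℝ, 0 < d ∧ d * ((Nb : ℝ) + 2 * Q + 3) = ε :=
    ⟨ε / ((Nb : ℝ) + 2 * Q + 3), by positivity, div_mul_cancel₀ _ (by positivity)⟩
  obtain ⟨ell, hell, hell4, hconn⟩ : ∃ ell : ℝ, 0 < ell ∧ ell ≤ 1 / 4 ∧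
      8 * ((Q : ℝ) + 1) * Cf * √(ell * mx / (4 * Q * d)) ≤ ε := by
    have hmx0 : (0 : ℝ) < mx := by exact_mod_cast hmx1
    refine ⟨min (1 / 4) (4 * Q * d / mx * (ε / (8 * (Q + 1) * Cf + 1)) ^ 2),
      lt_min (by norm_num) (by positivity), min_le_left _ _, le_of_sqrt_scale (by positivity) hε ?_⟩
    rw [div_le_iff₀ (by positivity)]
    calc _ ≤ 4 * Q * d / mx * (ε / (8 * (Q + 1) * Cf + 1)) ^ 2 * mx :=
          mul_le_mul_of_nonneg_right (min_le_right _ _) hmx0.le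
      _ = (ε / (8 * (Q + 1) * Cf + 1)) ^ 2 * (4 * Q * d) := by field_simp
  obtain ⟨κ, A, gap, hgap, hκ0, hκT, hκW, hκlt, hA, hamp⟩ :=
    hstair n0 hn0 (Lb * (1 - ell)) (ε * Lb) (by positivity) (by nlinarith)
  let X : Lay D :=
    { S := S, c := c, v := v, Nb := Nb, Q := Q, U := U, G := G, F := F, L := 2 * n0 + 1
      κ := κ, A := A, B := B, Lb := Lb, ell := ell, d := d, w := 64 * Cf ^ 2 / (2 * (Q : ℝ))
      hv := hv, hQ := hQ0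
      hU := fun i n hn u hu => by have := hcr i n hn u hu; omega
      hB := hB
      hBL := by rw [hBdef, hLbdef, hQr]; field_simp
      hell := hell, hell1 := hell4, hd := hd
      hw := div_pos hKc0 (by positivity)
      hL := by omega, hA := fun l hl => (hA l hl).1, hκ := hκlt, hκ0 := hκ0, hκT := hκT }
  -- counting
  have hcard : Fintype.card (X.Piece ⊕ ↥X.F) ≤ Q := by
    rw [Fintype.card_sum, Fintype.card_coe]
    have h : Fintype.card X.Piece ≤ ∑ p : X.Piece, (dot (p.2.1 : Fin D → ℤ) v).toNat := by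
      refine (le_of_eq ?_).trans (sum_le_sum (f := fun _ => 1) fun p _ => hm _ p.2.1.2)
      rw [sum_const, card_univ, smul_eq_mul, mul_one]
    show Fintype.card X.Piece + F.card ≤ Q
    exact le_trans (le_of_eq_of_le (Nat.add_comm _ _) (Nat.add_le_add_left h _)) hFc.le
  have hFQ : (F.card : ℝ) ≤ Q := by
    exact_mod_cast (Nat.le_add_right _ _).trans hFc.le
  have hFle : (F.card : ℝ) ≤ δT * Q := by
    have h1 : (F.card : ℝ) + ∑ p : X.Piece, ((dot (p.2.1 : Fin D → ℤ) v).toNat : ℝ) = Q := by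
      exact_mod_cast hFc
    have h2 : ∑ p : X.Piece, ((dot (p.2.1 : Fin D → ℤ) v).toNat : ℝ) =
        ∑ i, ∑ n ∈ S, (((U i n).card * (dot n v).toNat : ℕ) : ℝ) := by
      rw [X.sum_piece fun _ n _ => ((dot n v).toNat : ℝ)]
      simp [X]
    rw [hQr] at hcount
    linarith
  have hW : κ (2 * n0 + 1) ≤ Lb * (1 + ε) := hκW.trans (by nlinarith)
  have hkp : X.kp + 3 * d ≤ 1 + 8 * ε :=
    kp_le hNbr hQpos hd hFle hFQ hW X.hw.le rfl hδK hLbdef hEn hε hε1 hdd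
  refine path_of_lay hPB hR X N0 (mx := mx) (Cs := Cs) (gap := gap) (r := 1 / ((n0 : ℝ) + 1))
    (ρ := ρ) (θ := θ) (δT := δT) hε hεs hCf hE hrem hCs hgap (by positivity) (fun l hl => (hA l hl).2)
    hamp hmx1 hmx hcl hcov huniq hcard hn0s hconn (hkp.trans (by linarith)) ?_ hρ hc hg hG
    (fun i n hn k => hqQ ▸ hinv i n hn k) (fun n hn => ?_) hδc
  · show 64 * Cf ^ 2 * ((1 - ell) / (2 * (Q : ℝ))) ≤ 64 * Cf ^ 2 / (2 * (Q : ℝ))
    rw [mul_div_assoc']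
    exact div_le_div_of_nonneg_right (mul_le_of_le_one_right hKc0.le (by linarith)) (by positivity)
  · show |((dot n v).toNat : ℝ) * B / ρ n - ‖c n‖ ^ 2| ≤ δT * ‖c n‖ ^ 2
    have h := hnorm n hn
    have e1 : (Nb : ℝ) * En * (dot n v).toNat / (q * ρ n) = (dot n v).toNat * B / ρ n := by
      rw [hBdef]; field_simp
    rwa [e1] at h

end Vale.Agent.P110.Exist.Layout
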