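import Vale.Agent.P110.Exist.Layout.RunOps

/-!
The path through given runs.
-/

open Real Finset

namespace Vale.Agent.P110.Exist.Layout

/-- A run read as a path on `[0, 1/2]`. -/
noncomputable def Run.toPath (R : Run) (h0 : R.t 0 = 0) (h1 : R.t R.L = 1 / 2)
    (hlt : ∀ i < R.L, R.t i < R.t (i + 1)) (hne : ∀ i < R.L, R.kap i ≠ R.kap (i + 1)) : Path :=
  ⟨R.L, R.t, R.kap, h0, h1, hlt, hne⟩

/-- The path through given runs. -/
theorem pathBuild : PathBuildSpec := by
  classical
  intro ι _ R cell len Q N mx Cf δ ell kp σ0 hQ hδ hell hell1 hkp hF hlen hcover huniq hends hseg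
    hkap hrange hσ
  have hQr : (0 : ℝ) < Q := by exact_mod_cast hQ
  set glo : ℝ := ell / (4 * Q) with hglo
  set ghi : ℝ := ell * mx / (2 * Q) with hghi
  set B : ℝ := 2 * Cf * √(ell * mx / (4 * Q * δ)) with hB
  have hglo0 : 0 < glo := by positivity
  have hrange' : 2 ≤ (N : ℝ) * glo * δ := by
    rw [hglo, mul_div_assoc', div_mul_eq_mul_div, le_div_iff₀ (by positivity)]; linarith
  have hσ' : σ0 ≤ glo / (2 * (kp + 2 * δ)) := by
    refine hσ.trans (le_of_eq ?_)
    rw [hglo, div_div]; ring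
  have hB' : 2 * (2 * Cf * √(ghi / (2 * δ))) = 2 * B := by
    rw [hB, hghi, div_div]; ring_nf
  have hgood : ∀ j, (R j).Good σ0 δ (kp + 2 * δ) := fun j =>
    ⟨hseg j, fun l hl => ⟨(hkap j l hl).1, by linarith [(hkap j l hl).2]⟩⟩
  let T : ℕ → Finset ι := fun c => univ.filter fun j => cell j + len j ≤ c
  have main : ∀ c, c ≤ Q → (∀ j, cell j + len j ≤ c ∨ c ≤ cell j) →
      ∃ Ch : Run, Ch.z = 0 ∧ Ch.t 0 = 0 ∧ Ch.kap 0 = kp ∧ Ch.Good σ0 δ (kp + 2 * δ) ∧
        Ch.kap Ch.L ∈ Set.Icc δ kp ∧ Ch.t Ch.L ≤ (c : ℝ) / (2 * Q) ∧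
        (c : ℝ) / (2 * Q) - ell * mx / (4 * Q) ≤ Ch.t Ch.L ∧
        (0 < c → Ch.t Ch.L + glo ≤ (c : ℝ) / (2 * Q)) ∧
        Ch.L ≤ (∑ j ∈ T c, (R j).L) + 2 * (T c).card ∧
        ∀ k, ‖Ch.sum N k - ∑ j ∈ T c, (R j).sum N k‖ ≤ (T c).card * (2 * B) := by
    intro c
    induction c using Nat.strong_induction_on with
    | _ c ih =>
      intro hcQ hbd
      rcases Nat.eq_zero_or_pos c with hc | hc
      · subst hc
        have hT : T 0 = ∅ := filter_eq_empty_iff.mpr fun j _ => by
          have := (hlen j).1; omega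
        refine ⟨⟨0, fun _ => 0, fun _ => kp, 0⟩, rfl, rfl, rfl, ⟨fun l hl => ?_, fun l _ => ?_⟩,
          ⟨hkp, le_rfl⟩, by simp, ?_, fun h => absurd h (lt_irrefl _), by simp [hT], fun k => ?_⟩
        · simp at hl
        · exact ⟨hkp, by linarith⟩
        · simp; positivity
        · simp [hT, Run.sum]
      obtain ⟨j, hj1, hj2⟩ := hcover (c - 1) (by omega)
      have hje : cell j + len j = c := by rcases hbd j with h | h <;> omega
      obtain ⟨hl0, hlmx, hlQ⟩ := hlen j
      have hbd' : ∀ i, cell i + len i ≤ cell j ∨ cell j ≤ cell i := by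
        intro i
        by_contra hc'
        rw [not_or, not_le, not_le] at hc'
        have := huniq i j (cell j) hc'.2.le hc'.1 le_rfl (by omega)
        subst this; omega
      have hT : T c = insert j (T (cell j)) := by
        ext i
        simp only [T, mem_filter, mem_univ, true_and, mem_insert]
        refine ⟨fun h => ?_, ?_⟩
        · by_contra hn
          rw [not_or, not_le] at hn
          have hi := (hlen i).1
          rcases le_total (cell i) (cell j) with h' | h'
          · exact hn.1 (huniq i j (cell j) h' hn.2 le_rfl (by omega))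
          · exact hn.1 (huniq i j (cell i) le_rfl (by omega) h' (by omega))
        · rintro (rfl | h) <;> omega
      have hjT : j ∉ T (cell j) := by simp [T]; omega
      obtain ⟨Ch, hz, ht0, hk0, hCg, hend, hle, hge, -, hL, herr⟩ :=
        ih (cell j) (by omega) (by omega) hbd'
      obtain ⟨hs, he⟩ := hends j
      have hcr : (c : ℝ) = (cell j : ℝ) + (len j : ℝ) := by exact_mod_cast hje.symm
      have hlr : (1 : ℝ) ≤ (len j : ℝ) := by exact_mod_cast hl0
      have hmr : (len j : ℝ) ≤ (mx : ℝ) := by exact_mod_cast hlmx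
      have hstart : (R j).t 0 = (cell j : ℝ) / (2 * Q) + ell * (len j : ℝ) / (4 * Q) := by
        rw [hs]; field_simp; ring
      have hstop : (R j).t (R j).L = (c : ℝ) / (2 * Q) - ell * (len j : ℝ) / (4 * Q) := by
        rw [he, hcr]; field_simp; ring
      have hlo4 : glo ≤ ell * (len j : ℝ) / (4 * Q) := by rw [hglo]; gcongr; nlinarith
      have hhi4 : ell * (len j : ℝ) / (4 * Q) ≤ ell * mx / (4 * Q) := by gcongr
      have hg1 : glo ≤ (R j).t 0 - Ch.t Ch.L := by rw [hstart]; linarith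
      have hg2 : (R j).t 0 - Ch.t Ch.L ≤ ghi := by
        have h4 : ghi = ell * mx / (4 * Q) + ell * mx / (4 * Q) := by rw [hghi]; ring
        rw [hstart, h4]; linarith
      obtain ⟨K, hKL, hKz, hKt0, hKk0, hKt, hKk, hKg, ⟨m, hKm⟩, hKn⟩ :=
        exists_connector (N := N) (z := Ch.zl N Ch.L) (w := (R j).z) hδ hend
          (hkap j 0 (Nat.zero_le _)) hglo0 hg1 hg2 hrange' hσ' hF
      have a1 : Ch.t Ch.L = K.t 0 := hKt0.symm
      have a2 : Ch.kap Ch.L = K.kap 0 := hKk0.symm
      have eL : (Ch.app K).L = Ch.L + 2 := by simp [Run.app, hKL]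
      have b0 := Run.app_right (R := Ch) (S := K) a1 a2 2
      have b1 : (Ch.app K).t (Ch.app K).L = (R j).t 0 := by rw [eL, b0.1, hKt]
      have b2 : (Ch.app K).kap (Ch.app K).L = (R j).kap 0 := by rw [eL, b0.2, hKk]
      have bz : (Ch.app K).zl N (Ch.app K).L = (R j).z + m := by
        rw [eL, Run.zl_app_right N a1 a2, hKm, hKz]; ring
      have eL' : ((Ch.app K).app (R j)).L = (Ch.app K).L + (R j).L := rfl
      have c0 := Run.app_right (R := Ch.app K) (S := R j) b1 b2 (R j).L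
      refine ⟨(Ch.app K).app (R j), hz, ?_, ?_, (hCg.app hKg a1 a2).app (hgood j) b1 b2,
        ?_, ?_, ?_, fun _ => ?_, ?_, fun k => ?_⟩
      · rw [(Run.app_left (Nat.zero_le _)).1, (Run.app_left (Nat.zero_le _)).1, ht0]
      · rw [(Run.app_left (Nat.zero_le _)).2, (Run.app_left (Nat.zero_le _)).2, hk0]
      · rw [eL', c0.2]; exact hkap j _ le_rfl
      · rw [eL', c0.1, hstop]; linarith
      · rw [eL', c0.1, hstop]; linarith
      · rw [eL', c0.1, hstop]; linarith
      · rw [eL', eL, hT, sum_insert hjT, card_insert_of_notMem hjT]; omega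
      · rw [Run.sum_app N k b1 b2 ⟨m, bz⟩, Run.sum_app N k a1 a2 ⟨0, by simp [hKz]⟩, hT,
          sum_insert hjT, card_insert_of_notMem hjT,
          show Ch.sum N k + K.sum N k + (R j).sum N k - ((R j).sum N k + ∑ i ∈ T (cell j), (R i).sum N k)
            = (Ch.sum N k - ∑ i ∈ T (cell j), (R i).sum N k) + K.sum N k by ring]
        refine (norm_add_le _ _).trans ?_
        have := hKn k
        rw [hB'] at this
        push_cast
        linarith [herr k]
  have hTQ : T Q = univ := filter_true_of_mem fun j _ => (hlen j).2.2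
  obtain ⟨Ch, hz, ht0, hk0, hCg, hend, -, hge, hgl, hL, herr⟩ :=
    main Q le_rfl fun j => Or.inl (hlen j).2.2
  have hQ2 : (Q : ℝ) / (2 * Q) = 1 / 2 := by field_simp
  rw [hQ2] at hge hgl
  have hg1 : glo ≤ 1 / 2 - Ch.t Ch.L := by linarith [hgl hQ]
  have hg2 : 1 / 2 - Ch.t Ch.L ≤ ghi := by
    have h4 : ghi = ell * mx / (4 * Q) + ell * mx / (4 * Q) := by rw [hghi]; ring
    have : 0 ≤ ell * mx / (4 * Q) := by positivity
    linarith
  obtain ⟨K, hKL, hKz, hKt0, hKk0, hKt, hKk, hKg, ⟨m, hKm⟩, hKn⟩ :=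
    exists_connector (N := N) (z := Ch.zl N Ch.L) (w := 0) (kb := kp) hδ hend ⟨hkp, le_rfl⟩
      hglo0 hg1 hg2 hrange' hσ' hF
  have a1 : Ch.t Ch.L = K.t 0 := hKt0.symm
  have a2 : Ch.kap Ch.L = K.kap 0 := hKk0.symm
  have eL : (Ch.app K).L = Ch.L + 2 := by simp [Run.app, hKL]
  have hG := hCg.app hKg a1 a2
  have hlast : (Ch.app K).t (Ch.app K).L = 1 / 2 := by
    rw [eL, (Run.app_right a1 a2 2).1, hKt]
  have hfirst : (Ch.app K).t 0 = 0 := by rw [(Run.app_left (Nat.zero_le _)).1, ht0]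
  refine ⟨(Ch.app K).toPath hfirst hlast (fun i hi => (hG.seg i hi).1)
    (fun i hi => (hG.seg i hi).2.1), ?_, hG.mem, fun i hi => (hG.seg i hi).2.2, ?_, fun k => ?_⟩
  · refine ⟨2 * m, ?_⟩
    have h1 : (Ch.app K).zl N (Ch.app K).L = (m : ℝ) := by
      rw [eL, Run.zl_app_right N a1 a2, hKm, hKz]; ring
    have h2 : (Ch.app K).z = 0 := hz
    simp only [Run.zl, h2, zero_add] at h1
    push_cast
    rw [← h1, mul_assoc]
    rfl
  · show (Ch.app K).L ≤ _
    rw [eL]
    rw [hTQ, card_univ] at hL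
    omega
  · have hsum : ∀ i, (Ch.app K).zl N i = (N : ℝ) * Path.phi ((Ch.app K).toPath hfirst hlast
        (fun i hi => (hG.seg i hi).1) (fun i hi => (hG.seg i hi).2.1)) i := by
      intro i
      simp [Run.zl, Path.phi, Run.toPath, show (Ch.app K).z = 0 from hz]
    have h1 : (∑ i ∈ range (Ch.app K).L, Path.seg ((Ch.app K).toPath hfirst hlast
        (fun i hi => (hG.seg i hi).1) (fun i hi => (hG.seg i hi).2.1)) N i k) =
        (Ch.app K).sum N k := by
      refine sum_congr rfl fun i _ => ?_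
      rw [hsum]
      rfl
    have he := herr k
    rw [hTQ, card_univ] at he
    have hn := hKn k
    rw [hB'] at hn
    show ‖(∑ i ∈ range (Ch.app K).L, _) - _‖ ≤ _
    rw [h1, Run.sum_app N k a1 a2 ⟨0, by simp [hKz]⟩,
      show Ch.sum N k + K.sum N k - ∑ j, (R j).sum N k =
        (Ch.sum N k - ∑ j, (R j).sum N k) + K.sum N k by ring]
    refine (norm_add_le _ _).trans ?_
    nlinarith

end Vale.Agent.P110.Exist.Layout
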