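import Vale.Agent.P110.Exist.Layout.Defs
import Vale.Agent.P110.Exist.Basic

/-!
Runs of segments: concatenation, connectors and mirroring.
-/

open Real Finset

namespace Vale.Agent.P110.Exist.Layout

lemma segV_congr_int (N : ℕ) (t0 κ0 t1 κ1 z : ℝ) (m k : ℤ) :
    segV N t0 κ0 t1 κ1 (z + m) k = segV N t0 κ0 t1 κ1 z k := by
  simp only [segV]
  congr 2
  rw [← e_add_int (z - k * t0 - _ * (N : ℝ) * (κ0 - k / N) ^ 2 / 2) m]
  congr 1
  ring

lemma norm_segV_le {N : ℕ} {t0 κ0 t1 κ1 z Cf b : ℝ} {k : ℤ} (hF : ∀ y, ‖fresnel y‖ ≤ Cf)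
    (hb : |(t1 - t0) / (κ1 - κ0)| ≤ b) :
    ‖segV N t0 κ0 t1 κ1 z k‖ ≤ 2 * Cf * √b := by
  have hd : ∀ y y', ‖fresnel y - fresnel y'‖ ≤ 2 * Cf := fun y y' =>
    (norm_sub_le _ _).trans (by linarith [hF y, hF y'])
  simp only [segV, norm_mul, norm_e, Complex.norm_real, Real.norm_eq_abs, mul_one,
    abs_of_nonneg (Real.sqrt_nonneg _)]
  rw [mul_comm (2 * Cf)]
  refine mul_le_mul (Real.sqrt_le_sqrt hb) ?_ (norm_nonneg _) (Real.sqrt_nonneg _)
  split_ifs
  · exact hd _ _
  · rw [Complex.norm_conj]; exact hd _ _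

namespace Run

lemma zl_zero (R : Run) (N : ℕ) : R.zl N 0 = R.z := by simp [zl]

lemma zl_succ (R : Run) (N l : ℕ) :
    R.zl N (l + 1) = R.zl N l + N * ((R.kap l + R.kap (l + 1)) / 2 * (R.t (l + 1) - R.t l)) := by
  simp only [zl, sum_range_succ]; ring

/-- `R` followed by `S`. -/
noncomputable def app (R S : Run) : Run where
  L := R.L + S.L
  t l := if l ≤ R.L then R.t l else S.t (l - R.L)
  kap l := if l ≤ R.L then R.kap l else S.kap (l - R.L)
  z := R.z

variable {R S : Run}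

lemma app_left {l : ℕ} (h : l ≤ R.L) :
    (R.app S).t l = R.t l ∧ (R.app S).kap l = R.kap l := by simp [app, h]

lemma app_right (ht : R.t R.L = S.t 0) (hk : R.kap R.L = S.kap 0) (l : ℕ) :
    (R.app S).t (R.L + l) = S.t l ∧ (R.app S).kap (R.L + l) = S.kap l := by
  rcases Nat.eq_zero_or_pos l with h | h
  · subst h; simp [app, ht, hk]
  · simp [app, show ¬ R.L + l ≤ R.L by omega]

lemma zl_app_left (N : ℕ) {l : ℕ} (h : l ≤ R.L) : (R.app S).zl N l = R.zl N l := by
  induction l with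
  | zero => simp [zl_zero, app]
  | succ l ih =>
    rw [zl_succ, zl_succ, ih (by omega), (app_left h).1, (app_left h).2,
      (app_left (Nat.le_of_succ_le h)).1, (app_left (Nat.le_of_succ_le h)).2]

lemma zl_app_right (N : ℕ) (ht : R.t R.L = S.t 0) (hk : R.kap R.L = S.kap 0) (l : ℕ) :
    (R.app S).zl N (R.L + l) = S.zl N l + (R.zl N R.L - S.z) := by
  induction l with
  | zero => rw [add_zero, zl_app_left N le_rfl, zl_zero]; ring
  | succ l ih =>
    rw [← add_assoc, zl_succ, zl_succ, ih, show R.L + l + 1 = R.L + (l + 1) by omega,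
      (app_right ht hk (l + 1)).1,
      (app_right ht hk (l + 1)).2, (app_right ht hk l).1, (app_right ht hk l).2]
    ring

lemma sum_app (N : ℕ) (k : ℤ) (ht : R.t R.L = S.t 0) (hk : R.kap R.L = S.kap 0)
    (hz : ∃ m : ℤ, R.zl N R.L = S.z + m) :
    (R.app S).sum N k = R.sum N k + S.sum N k := by
  obtain ⟨m, hm⟩ := hz
  simp only [Run.sum, show (R.app S).L = R.L + S.L from rfl, sum_range_add]
  congr 1
  · refine sum_congr rfl fun l hl => ?_
    have hl' := mem_range.mp hl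
    rw [zl_app_left N hl'.le, (app_left hl'.le).1, (app_left hl'.le).2, (app_left hl').1,
      (app_left hl').2]
  · refine sum_congr rfl fun l _ => ?_
    rw [zl_app_right N ht hk, add_assoc, (app_right ht hk l).1, (app_right ht hk l).2,
      (app_right ht hk (l + 1)).1, (app_right ht hk (l + 1)).2, hm, add_sub_cancel_left,
      segV_congr_int]

/-- Increasing times, nonzero slopes at most `1 / σ0`, knots in `[lo, hi]`. -/
structure Good (R : Run) (σ0 lo hi : ℝ) : Prop where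
  seg : ∀ l < R.L, R.t l < R.t (l + 1) ∧ R.kap l ≠ R.kap (l + 1) ∧
    σ0 ≤ |(R.t (l + 1) - R.t l) / (R.kap (l + 1) - R.kap l)|
  mem : ∀ l ≤ R.L, R.kap l ∈ Set.Icc lo hi

lemma Good.app {σ0 lo hi : ℝ} (hR : R.Good σ0 lo hi) (hS : S.Good σ0 lo hi)
    (ht : R.t R.L = S.t 0) (hk : R.kap R.L = S.kap 0) : (R.app S).Good σ0 lo hi := by
  refine ⟨fun l hl => ?_, fun l hl => ?_⟩
  · rcases lt_or_ge l R.L with h | h
    · rw [(app_left h.le).1, (app_left h.le).2, (app_left h).1, (app_left h).2]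
      exact hR.seg l h
    · obtain ⟨i, rfl⟩ := Nat.exists_eq_add_of_le h
      rw [add_assoc, (app_right ht hk i).1, (app_right ht hk i).2, (app_right ht hk (i + 1)).1,
        (app_right ht hk (i + 1)).2]
      exact hS.seg i (by simp only [Run.app] at hl; omega)
  · rcases le_or_gt l R.L with h | h
    · rw [(app_left h).2]; exact hR.mem l h
    · obtain ⟨i, rfl⟩ := Nat.exists_eq_add_of_le h.le
      rw [(app_right ht hk i).2]
      exact hS.mem i (by simp only [Run.app] at hl; omega)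

/-- Two equal halves through `κm`. -/
noncomputable def conn (ta ka tb kb κm z : ℝ) : Run where
  L := 2
  t l := if l = 0 then ta else if l = 1 then (ta + tb) / 2 else tb
  kap l := if l = 0 then ka else if l = 1 then κm else kb
  z := z

end Run

/-- A connector from `(ta, ka)` to `(tb, kb)` through the band, with prescribed end phase mod 1. -/
lemma exists_connector {N : ℕ} {ta ka tb kb z w δ kp σ0 Cf glo ghi : ℝ}
    (hδ : 0 < δ) (hka : ka ∈ Set.Icc δ kp) (hkb : kb ∈ Set.Icc δ kp) (hglo : 0 < glo)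
    (h1 : glo ≤ tb - ta) (h2 : tb - ta ≤ ghi) (hrange : 2 ≤ (N : ℝ) * glo * δ)
    (hσ : σ0 ≤ glo / (2 * (kp + 2 * δ))) (hF : ∀ y, ‖fresnel y‖ ≤ Cf) :
    ∃ R : Run, R.L = 2 ∧ R.z = z ∧ R.t 0 = ta ∧ R.kap 0 = ka ∧ R.t 2 = tb ∧ R.kap 2 = kb ∧
      R.Good σ0 δ (kp + 2 * δ) ∧ (∃ m : ℤ, R.zl N 2 = w + m) ∧
      ∀ k, ‖R.sum N k‖ ≤ 2 * (2 * Cf * √(ghi / (2 * δ))) := by
  set g := tb - ta with hg
  have hgpos : 0 < g := lt_of_lt_of_le hglo h1
  have hNg : 2 ≤ (N : ℝ) * g * δ :=
    hrange.trans (mul_le_mul_of_nonneg_right (mul_le_mul_of_nonneg_left h1 (Nat.cast_nonneg _)) hδ.le)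
  have hNgpos : 0 < (N : ℝ) * g := pos_of_mul_pos_left (by linarith) hδ.le
  set base := (N : ℝ) * g / 4 * (ka + kb + 2 * (kp + δ)) with hbase
  set x := w - z - base with hx
  set κm := kp + δ + 2 * Int.fract x / (N * g) with hκ
  have hlo : kp + δ ≤ κm := by
    have : 0 ≤ 2 * Int.fract x / ((N : ℝ) * g) :=
      div_nonneg (by linarith [Int.fract_nonneg x]) hNgpos.le
    linarith
  have hhi : κm ≤ kp + 2 * δ := by
    have : 2 * Int.fract x / ((N : ℝ) * g) ≤ δ := by
      rw [div_le_iff₀ hNgpos]; nlinarith [Int.fract_lt_one x]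
    linarith
  refine ⟨Run.conn ta ka tb kb κm z, rfl, rfl, by simp [Run.conn], by simp [Run.conn],
    by simp [Run.conn], by simp [Run.conn], ⟨?_, ?_⟩, ⟨-⌊x⌋, ?_⟩, fun k => ?_⟩
  rotate_left
  · intro l hl
    obtain ⟨a1, a2⟩ := hka; obtain ⟨b1, b2⟩ := hkb
    simp only [Run.conn] at hl ⊢
    rcases (by omega : l = 0 ∨ l = 1 ∨ l = 2) with rfl | rfl | rfl <;> simp <;>
      constructor <;> linarith
  · rw [Run.zl_succ, Run.zl_succ, Run.zl_zero]
    simp [Run.conn]
    have hf : Int.fract x = x - ⌊x⌋ := (Int.self_sub_floor x).symm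
    have hN0 : (N : ℝ) ≠ 0 := fun h => by rw [h] at hNgpos; linarith
    have e1 : (N : ℝ) * g / 2 * (2 * Int.fract x / (N * g)) = Int.fract x := by field_simp
    rw [hκ] at *
    linear_combination e1 + hf
  · simp only [Run.sum, show (Run.conn ta ka tb kb κm z).L = 2 from rfl, sum_range_succ,
      sum_range_zero, zero_add]
    refine (norm_add_le _ _).trans ?_
    rw [two_mul (2 * Cf * _)]
    obtain ⟨a1, a2⟩ := hka; obtain ⟨b1, b2⟩ := hkb
    have key : ∀ u v : ℝ, u = g / 2 → δ ≤ |v| → |u / v| ≤ ghi / (2 * δ) := by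
      intro u v hu hv
      rw [abs_div, hu, abs_of_pos (by linarith : (0 : ℝ) < g / 2), ← div_div ghi 2 δ]
      exact div_le_div₀ (by linarith) (by linarith) hδ hv
    apply add_le_add <;> apply norm_segV_le hF <;> simp [Run.conn] <;>
      refine key _ _ (by rw [hg]; ring) ?_
    · rw [abs_of_nonneg (by linarith)]; linarith
    · rw [abs_of_nonpos (by linarith)]; linarith
  · intro l hl
    obtain ⟨a1, a2⟩ := hka; obtain ⟨b1, b2⟩ := hkb
    simp only [Run.conn] at hl ⊢
    have key : ∀ u v : ℝ, u = g / 2 → δ ≤ |v| → |v| ≤ kp + 2 * δ → σ0 ≤ |u / v| := by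
      intro u v hu hv hv'
      rw [abs_div, hu, abs_of_pos (by linarith : (0 : ℝ) < g / 2)]
      refine hσ.trans ?_
      rw [div_le_div_iff₀ (by linarith) (lt_of_lt_of_le hδ hv)]
      nlinarith
    rcases (by omega : l = 0 ∨ l = 1) with rfl | rfl <;> simp
    · refine ⟨by linarith, by intro h; linarith, key _ _ (by rw [hg]; ring) ?_ ?_⟩ <;>
        rw [abs_of_nonneg (by linarith : (0 : ℝ) ≤ κm - ka)] <;> linarith
    · refine ⟨by linarith, by intro h; linarith, key _ _ (by rw [hg]; ring) ?_ ?_⟩ <;>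
        rw [abs_of_nonpos (by linarith : kb - κm ≤ 0)] <;> linarith

namespace Run

lemma zl_rev (R : Run) (N : ℕ) {l : ℕ} (hl : l ≤ R.L) :
    (R.rev N).zl N l = -(R.zl N (R.L - l)) := by
  induction l with
  | zero => simp [zl_zero, rev]
  | succ l ih =>
    rw [zl_succ, ih (by omega)]
    have h : R.L - l = R.L - (l + 1) + 1 := by omega
    simp only [rev]
    rw [h, zl_succ]
    ring

end Run

/-- Mirroring conjugates the coefficients. -/
theorem rev : RevSpec := by
  intro R N hN hR k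
  simp only [Run.sum, map_sum, show (R.rev N).L = R.L from rfl]
  rw [← sum_range_reflect (fun l => (starRingEnd ℂ)
    (segV N (R.t l) (R.kap l) (R.t (l + 1)) (R.kap (l + 1)) (R.zl N l) k))]
  refine sum_congr rfl fun l hl => ?_
  have hl' := mem_range.mp hl
  obtain ⟨i, hi⟩ : ∃ i, R.L = l + 1 + i := ⟨R.L - (l + 1), by omega⟩
  have e1 : R.L - 1 - l = i := by omega
  have e2 : R.L - (l + 1) = i := by omega
  have e3 : R.L - l = i + 1 := by omega
  rw [Run.zl_rev R N hl'.le, e1]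
  simp only [Run.rev, e2, e3, segV]
  obtain ⟨ht, hk⟩ := hR i (by omega)
  set dt := R.t (i + 1) - R.t i with hdt
  set dk := R.kap (i + 1) - R.kap i with hdk
  have hσ : 0 < dt / dk := div_pos (by linarith) (by linarith)
  have hs : (1 - R.t i - (1 - R.t (i + 1))) / (R.kap i - R.kap (i + 1)) = -(dt / dk) := by
    rw [hdt, hdk, ← div_neg]; congr 1 <;> ring
  rw [hs, abs_neg, if_neg (by linarith), if_pos hσ]
  simp only [map_mul, Complex.conj_ofReal, ← e_neg]
  congr 1
  · congr 1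
    have hz : -R.zl N (i + 1) - k * (1 - R.t (i + 1)) -
        -(dt / dk) * N * (R.kap (i + 1) - k / N) ^ 2 / 2 =
        -(R.zl N i - k * R.t i - dt / dk * N * (R.kap i - k / N) ^ 2 / 2) + ((-k : ℤ) : ℝ) := by
      rw [Run.zl_succ, hdt, hdk]
      have hN' : (N : ℝ) ≠ 0 := by exact_mod_cast hN.ne'
      have : R.kap (i + 1) - R.kap i ≠ 0 := by linarith
      push_cast
      field_simp
      ring
    rw [hz, e_add_int]
  · have hneg : ∀ κ : ℝ, √(|dt / dk| * N) * ((k : ℝ) / N - κ) =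
        -(√(|dt / dk| * N) * (κ - (k : ℝ) / N)) := fun κ => by ring
    rw [hneg, hneg, fresnel_neg, fresnel_neg]
    simp only [map_sub, map_neg]
    ring

end Vale.Agent.P110.Exist.Layout
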