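import Vale.Agent.P110.Exist.Layout.Basic

/-!
The staircase profile, the runs that follow it, and single segments.
-/

open Real Finset

namespace Vale.Agent.P110.Exist.Layout

/-- The levels: up from `1/(n+1)` to `1` and down again, `2 n + 1` steps. -/
noncomputable def lev (n l : ℕ) : ℝ := ((min (l + 1) (2 * n + 1 - l) : ℕ) : ℝ) / (n + 1)

/-- The knots of the profile with side width `a` and middle width `b`. -/
noncomputable def knot (n : ℕ) (a b : ℝ) (l : ℕ) : ℝ := ∑ i ∈ range l, if i = n then b else a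

lemma lev_mid (n : ℕ) : lev n n = 1 := by
  rw [lev, show min (n + 1) (2 * n + 1 - n) = n + 1 by omega]
  push_cast
  field_simp

lemma lev_bounds {n l : ℕ} (hl : l < 2 * n + 1) : 1 / ((n : ℝ) + 1) ≤ lev n l ∧ lev n l ≤ 1 := by
  have h1 : 1 ≤ min (l + 1) (2 * n + 1 - l) := by omega
  have h2 : min (l + 1) (2 * n + 1 - l) ≤ n + 1 := by omega
  have h1' : (1 : ℝ) ≤ (min (l + 1) (2 * n + 1 - l) : ℕ) := by exact_mod_cast h1
  have h2' : ((min (l + 1) (2 * n + 1 - l) : ℕ) : ℝ) ≤ (n : ℝ) + 1 := by exact_mod_cast h2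
  constructor
  · exact div_le_div_of_nonneg_right h1' (by positivity)
  · rw [lev, div_le_one (by positivity)]; exact h2'

lemma lev_step (n l : ℕ) : |lev n (l + 1) - lev n l| ≤ 1 / ((n : ℝ) + 1) := by
  rw [lev, lev, ← sub_div, abs_div, abs_of_pos (show (0 : ℝ) < (n : ℝ) + 1 by positivity)]
  refine div_le_div_of_nonneg_right ?_ (by positivity)
  have h1 : min (l + 1 + 1) (2 * n + 1 - (l + 1)) ≤ min (l + 1) (2 * n + 1 - l) + 1 := by omega
  have h2 : min (l + 1) (2 * n + 1 - l) ≤ min (l + 1 + 1) (2 * n + 1 - (l + 1)) + 1 := by omega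
  have h1' := (Nat.cast_le (α := ℝ)).2 h1
  have h2' := (Nat.cast_le (α := ℝ)).2 h2
  push_cast at h1' h2'
  rw [abs_le]; push_cast; constructor <;> linarith

lemma stT_add_const (κ A : ℕ → ℝ) (o : ℝ) (l : ℕ) : stT (fun i => o + κ i) A l = stT κ A l := by
  simp only [stT, add_sub_add_left_eq_sub]

/-- **The profile.** -/
theorem exists_profile (n : ℕ) (hn : 1 ≤ n) {T e : ℝ} (he : 0 < e) (heT : e < T) :
    ∃ (κ A : ℕ → ℝ) (gap : ℝ), 0 < gap ∧ κ 0 = 0 ∧ stT κ A (2 * n + 1) = T ∧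
      κ (2 * n + 1) ≤ T + e ∧ (∀ l < 2 * n + 1, gap ≤ κ (l + 1) - κ l) ∧
      (∀ l < 2 * n + 1, 1 / ((n : ℝ) + 1) ≤ A l ∧ A l ≤ 1) ∧
      (∀ l, l + 1 < 2 * n + 1 → |A (l + 1) - A l| ≤ 1 / ((n : ℝ) + 1)) ∧
      A 0 ≤ 1 / ((n : ℝ) + 1) ∧ A (2 * n + 1 - 1) ≤ 1 / ((n : ℝ) + 1) := by
  set a := e / (2 * n)
  have hn0 : (0 : ℝ) < n := by exact_mod_cast hn
  have ha : 0 < a := by positivity
  set S := ∑ l ∈ (range (2 * n + 1)).erase n, lev n l ^ 2 * a
  have hcard : ((range (2 * n + 1)).erase n).card = 2 * n := by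
    rw [card_erase_of_mem (mem_range.2 (by omega)), card_range]; omega
  have h2a : ((2 * n : ℕ) : ℝ) * a = e := by push_cast; simp only [a]; field_simp
  have hS0 : 0 ≤ S := sum_nonneg fun _ _ => by positivity
  have hS : S ≤ e := by
    refine (sum_le_sum (g := fun _ => a) fun l hl => ?_).trans_eq ?_
    · have h := lev_bounds (mem_range.1 (mem_of_mem_erase hl))
      exact mul_le_of_le_one_left ha.le
        (pow_le_one₀ (le_trans (by positivity) h.1) h.2)
    · rw [sum_const, hcard, nsmul_eq_mul, h2a]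
  set b := T - S
  refine ⟨knot n a b, lev n, min a b, lt_min ha (by linarith), by simp [knot], ?_, ?_,
    fun l _ => ?_, fun l hl => lev_bounds hl, fun l _ => lev_step n l, ?_, ?_⟩
  · rw [stT, ← add_sum_erase _ _ (mem_range.2 (show n < 2 * n + 1 by omega))]
    have hd : ∀ i, knot n a b (i + 1) - knot n a b i = if i = n then b else a := fun i => by
      simp [knot, sum_range_succ]
    rw [hd, if_pos rfl, lev_mid, one_pow, one_mul,
      sum_congr rfl fun i hi => by rw [hd, if_neg (ne_of_mem_erase hi)]]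
    show T - S + S = T
    ring
  · rw [knot, ← add_sum_erase _ _ (mem_range.2 (show n < 2 * n + 1 by omega)), if_pos rfl,
      sum_congr rfl fun i hi => if_neg (ne_of_mem_erase hi), sum_const, hcard, nsmul_eq_mul, h2a]
    linarith
  · simp only [knot, sum_range_succ, add_sub_cancel_left]
    split_ifs
    · exact min_le_right _ _
    · exact min_le_left _ _
  · rw [lev, show min (0 + 1) (2 * n + 1 - 0) = 1 by omega, Nat.cast_one]
  · rw [lev, show min (2 * n + 1 - 1 + 1) (2 * n + 1 - (2 * n + 1 - 1)) = 1 by omega, Nat.cast_one]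

/-- A run along a staircase. -/
noncomputable def stairRun (L : ℕ) (κ A : ℕ → ℝ) (ω t0 z : ℝ) : Run where
  L := L
  t l := t0 + ω * stT κ A l
  kap := κ
  z := z

lemma stair_dt (L : ℕ) (κ A : ℕ → ℝ) (ω t0 z : ℝ) (l : ℕ) :
    (stairRun L κ A ω t0 z).t (l + 1) - (stairRun L κ A ω t0 z).t l =
      ω * A l ^ 2 * (κ (l + 1) - κ l) := by
  simp only [stairRun, stT, sum_range_succ]; ring

lemma stair_inc {L : ℕ} {κ A : ℕ → ℝ} {ω : ℝ} (t0 z : ℝ) (hω : 0 < ω) (hA : ∀ l < L, 0 < A l)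
    (hκ : ∀ l < L, κ l < κ (l + 1)) : ∀ l < L,
      (stairRun L κ A ω t0 z).t l < (stairRun L κ A ω t0 z).t (l + 1) ∧
      (stairRun L κ A ω t0 z).kap l < (stairRun L κ A ω t0 z).kap (l + 1) := fun l hl => by
  have h := stair_dt L κ A ω t0 z l
  have : 0 < ω * A l ^ 2 * (κ (l + 1) - κ l) :=
    mul_pos (mul_pos hω (pow_pos (hA l hl) 2)) (sub_pos.2 (hκ l hl))
  exact ⟨by linarith, hκ l hl⟩

lemma stair_slope {L : ℕ} {κ A : ℕ → ℝ} {ω : ℝ} (t0 z : ℝ) {l : ℕ} (hκ : κ l < κ (l + 1)) :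
    ((stairRun L κ A ω t0 z).t (l + 1) - (stairRun L κ A ω t0 z).t l) /
      ((stairRun L κ A ω t0 z).kap (l + 1) - (stairRun L κ A ω t0 z).kap l) = ω * A l ^ 2 := by
  rw [stair_dt]
  exact mul_div_cancel_right₀ _ (sub_pos.2 hκ).ne'

/-- **The sum of a staircase run.** -/
theorem stair_sum {L : ℕ} {κ A : ℕ → ℝ} {ω : ℝ} (t0 z : ℝ) {N : ℕ} (hN : 0 < N) (hω : 0 < ω)
    (hA : ∀ l < L, 0 < A l) (hκ : ∀ l < L, κ l < κ (l + 1)) (k : ℤ) :
    (stairRun L κ A ω t0 z).sum N k = (√ω : ℂ) * e (z - k * t0) *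
      ∑ l ∈ range L, (A l : ℂ) *
        e (ω * N * (stP κ A l - (k : ℝ) / N * stT κ A l - A l ^ 2 * (κ l - (k : ℝ) / N) ^ 2 / 2)) *
        (fresnel (A l * √(ω * N) * (κ (l + 1) - (k : ℝ) / N)) -
          fresnel (A l * √(ω * N) * (κ l - (k : ℝ) / N))) := by
  rw [Run.sum, mul_sum]
  refine sum_congr rfl fun l hl => ?_
  have hl : l < L := mem_range.1 hl
  have hz : (stairRun L κ A ω t0 z).zl N l = z + N * (ω * stP κ A l) := by
    rw [Run.zl, stP, mul_sum _ _ ω]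
    refine congrArg₂ (· + ·) rfl (congrArg ((N : ℝ) * ·) (sum_congr rfl fun i _ => ?_))
    rw [stair_dt]
    simp only [stairRun]
    ring
  have hs : 0 < ω * A l ^ 2 := mul_pos hω (pow_pos (hA l hl) 2)
  have hr : √(ω * A l ^ 2) = A l * √ω := by
    rw [sqrt_mul hω.le, sqrt_sq (hA l hl).le, mul_comm]
  have hr' : √(ω * A l ^ 2 * N) = A l * √(ω * N) := by
    rw [sqrt_mul hs.le, hr, sqrt_mul hω.le, mul_assoc]
  have hN' : (N : ℝ) ≠ 0 := by positivity
  simp only [segV, stair_slope t0 z (hκ l hl), abs_of_pos hs, hs, if_true, hr, hr', hz]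
  have he : e (z + N * (ω * stP κ A l) - k * (stairRun L κ A ω t0 z).t l -
      ω * A l ^ 2 * N * ((stairRun L κ A ω t0 z).kap l - (k : ℝ) / N) ^ 2 / 2) =
      e (z - k * t0) * e (ω * N *
        (stP κ A l - (k : ℝ) / N * stT κ A l - A l ^ 2 * (κ l - (k : ℝ) / N) ^ 2 / 2)) := by
    rw [← e_add]
    congr 1
    simp only [stairRun]
    field_simp
    ring
  rw [he]
  simp only [stairRun]
  push_cast
  ring

/-- A single segment with positive slope. -/
lemma segV_norm {N : ℕ} {t0 κ0 t1 κ1 z C : ℝ} (ht : t0 < t1) (hκ : κ0 < κ1)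
    (hC : ∀ y, ‖fresnel y‖ ≤ C) (k : ℤ) :
    ‖segV N t0 κ0 t1 κ1 z k‖ ≤ √((t1 - t0) / (κ1 - κ0)) * (2 * C) := by
  have hσ : 0 < (t1 - t0) / (κ1 - κ0) := div_pos (sub_pos.2 ht) (sub_pos.2 hκ)
  simp only [segV, hσ, if_true, norm_mul, norm_e, mul_one, Complex.norm_real, Real.norm_eq_abs,
    abs_of_nonneg (sqrt_nonneg _), abs_of_pos hσ]
  refine mul_le_mul_of_nonneg_left ((norm_sub_le _ _).trans ?_) (sqrt_nonneg _)
  linarith [hC (√((t1 - t0) / (κ1 - κ0) * N) * (κ1 - (k : ℝ) / N)),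
    hC (√((t1 - t0) / (κ1 - κ0) * N) * (κ0 - (k : ℝ) / N))]

/-- A single segment away from its frequencies. -/
lemma segV_far {N : ℕ} {t0 κ0 t1 κ1 z C h : ℝ} (hN : 0 < N) (ht : t0 < t1) (hκ : κ0 < κ1)
    (hC : ∀ y, ‖fresnelRem y‖ ≤ C / (1 + |y|)) (hh : 0 < h) (k : ℤ)
    (hx : (k : ℝ) / N ≤ κ0 - h ∨ κ1 + h ≤ (k : ℝ) / N) :
    ‖segV N t0 κ0 t1 κ1 z k‖ ≤ 2 * C / (√(N : ℝ) * h) := by
  set σ := (t1 - t0) / (κ1 - κ0) with hσdef
  have hσ : 0 < σ := div_pos (sub_pos.2 ht) (sub_pos.2 hκ)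
  have hC0 : 0 ≤ C := by
    simpa using (norm_nonneg _).trans (hC 0)
  set x := (k : ℝ) / N
  set y0 := √(σ * N) * (κ0 - x)
  set y1 := √(σ * N) * (κ1 - x)
  have hs : 0 < √(σ * N) := sqrt_pos.2 (by positivity)
  have hb : ∀ y, √(σ * N) * h ≤ |y| → ‖fresnelRem y‖ ≤ C / (√(σ * N) * h) := fun y hy =>
    (hC y).trans (div_le_div_of_nonneg_left hC0 (by positivity) (by linarith))
  have hkey : ‖fresnel y1 - fresnel y0‖ ≤ 2 * C / (√(σ * N) * h) := by
    have hsg : Real.sign y1 = Real.sign y0 ∧ √(σ * N) * h ≤ |y1| ∧ √(σ * N) * h ≤ |y0| := by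
      rcases hx with hx | hx
      · have h0 : √(σ * N) * h ≤ y0 := mul_le_mul_of_nonneg_left (by linarith) hs.le
        have h1 : √(σ * N) * h ≤ y1 := mul_le_mul_of_nonneg_left (by linarith) hs.le
        have hp : 0 < √(σ * N) * h := by positivity
        exact ⟨by rw [Real.sign_of_pos (by linarith), Real.sign_of_pos (by linarith)],
          h1.trans (le_abs_self _), h0.trans (le_abs_self _)⟩
      · have h0 : √(σ * N) * h ≤ -y0 := by
          simp only [y0, ← mul_neg]; exact mul_le_mul_of_nonneg_left (by linarith) hs.le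
        have h1 : √(σ * N) * h ≤ -y1 := by
          simp only [y1, ← mul_neg]; exact mul_le_mul_of_nonneg_left (by linarith) hs.le
        have hp : 0 < √(σ * N) * h := by positivity
        exact ⟨by rw [Real.sign_of_neg (by linarith), Real.sign_of_neg (by linarith)],
          h1.trans (neg_le_abs _), h0.trans (neg_le_abs _)⟩
    have he : fresnel y1 - fresnel y0 = fresnelRem y1 - fresnelRem y0 := by
      simp only [fresnelRem, hsg.1]; ring
    rw [he, show 2 * C / (√(σ * N) * h) = C / (√(σ * N) * h) + C / (√(σ * N) * h) by ring]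
    exact (norm_sub_le _ _).trans (add_le_add (hb _ hsg.2.1) (hb _ hsg.2.2))
  simp only [segV, ← hσdef, hσ, if_true, norm_mul, norm_e, mul_one, Complex.norm_real,
    Real.norm_eq_abs, abs_of_nonneg (sqrt_nonneg _), abs_of_pos hσ]
  refine (mul_le_mul_of_nonneg_left hkey (sqrt_nonneg _)).trans_eq ?_
  rw [sqrt_mul hσ.le]
  have : √σ ≠ 0 := (sqrt_pos.2 hσ).ne'
  field_simp

end Vale.Agent.P110.Exist.Layout
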