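import Vale.Agent.P110.Exist.Layout.Data

/-!
The sum over the items at a frequency: at most one block or free cell is large there.
-/

open Real Finset

namespace Vale.Agent.P110.Exist.Layout

/-- Two families, at most one member of which is large. -/
lemma sum_two {α β : Type*} [Fintype α] [Fintype β] (a : α → ℝ) (b : β → ℝ) {big small : ℝ}
    (pa : α → Prop) (pb : β → Prop) (haa : ∀ i j, pa i → pa j → i = j)
    (hbb : ∀ i j, pb i → pb j → i = j) (hab : ∀ i j, pa i → pb j → False)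
    (ha : ∀ i, a i ≤ big) (ha0 : ∀ i, ¬ pa i → a i ≤ 0)
    (hb : ∀ j, b j ≤ big + small) (hb0 : ∀ j, ¬ pb j → b j ≤ small) (hbig : 0 ≤ big) :
    ∑ i, a i + ∑ j, b j ≤ big + Fintype.card β * small := by
  classical
  have h : ∑ i, a i + ∑ j, b j ≤ ∑ i, (if pa i then big else 0) +
      ∑ j, ((if pb j then big else 0) + small) := by
    refine add_le_add (sum_le_sum fun i _ => ?_) (sum_le_sum fun j _ => ?_)
    · split_ifs with h
      · exact ha i
      · exact ha0 i h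
    · split_ifs with h
      · exact hb j
      · rw [zero_add]; exact hb0 j h
  refine h.trans ?_
  rw [sum_add_distrib, sum_const, card_univ, nsmul_eq_mul, ← add_assoc, ← sum_filter, ← sum_filter,
    sum_const, sum_const, nsmul_eq_mul, nsmul_eq_mul, ← add_mul, ← Nat.cast_add]
  refine add_le_add (mul_le_of_le_one_left hbig ?_) le_rfl
  refine Nat.cast_le_one.2 ?_
  rw [← card_disjSum]
  refine card_le_one.2 fun x hx y hy => ?_
  rcases x with i | i <;> rcases y with j | j <;>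
    simp only [inl_mem_disjSum, inr_mem_disjSum, mem_filter, mem_univ, true_and] at hx hy
  · rw [haa i j hx hy]
  · exact (hab i j hx hy).elim
  · exact (hab j i hy hx).elim
  · rw [hbb i j hx hy]

namespace Lay

variable {D : ℕ} (X : Lay D)

lemma sum_piece {M : Type*} [AddCommMonoid M] (g : Fin X.Nb → (Fin D → ℤ) → ℕ → M) :
    ∑ p : X.Piece, g p.1 p.2.1 p.2.2 = ∑ i, ∑ n ∈ X.S, ∑ u ∈ X.U i n, g i n u := by
  rw [Fintype.sum_sigma]
  refine sum_congr rfl fun i _ => ?_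
  rw [Fintype.sum_sigma, ← sum_coe_sort X.S fun n => ∑ u ∈ X.U i n, g i n u]
  exact sum_congr rfl fun n _ => sum_coe_sort (X.U i n) fun u => g i n u

/-- The real part of the sum over the items. -/
lemma re_items (hR : RevSpec) {N : ℕ} (hN : 0 < N) (k : ℤ) :
    2 * (∑ j, (X.R N j).sum N k).re =
      ∑ i, 2 * (∑ n ∈ X.S, ∑ u ∈ X.U i n, (X.fwd i n u).sum N k).re +
        ∑ y, 2 * ((X.free y).sum N k).re := by
  have hre : ∀ p : X.Piece,
      ((X.R N (Sum.inl p)).sum N k).re = ((X.fwd p.1 p.2.1 p.2.2).sum N k).re := fun p => by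
    simp only [R, Sum.elim_inl]
    split_ifs with h
    · rfl
    · rw [hR _ N hN (X.fwd_inc p.1 p.2.1.2 _) k, Complex.conj_re]
  rw [Complex.re_sum, Fintype.sum_sum_type, mul_add]
  simp only [hre, Complex.re_sum, mul_sum]
  rw [X.sum_piece fun i n u => 2 * ((X.fwd i n u).sum N k).re]
  rfl

/-- **The sum over the items.** -/
theorem items_bound (hR : RevSpec) {N : ℕ} (hN : 0 < N) (k : ℤ) {Cf : ℝ} (hCf : 0 < Cf)
    (hE : ∀ y, ‖fresnel y‖ ≤ Cf) (hrem : ∀ y, ‖fresnelRem y‖ ≤ Cf / (1 + |y|))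
    (hK : 64 * Cf ^ 2 * ((1 - X.ell) / (2 * (X.Q : ℝ))) ≤ X.w)
    {ρ : (Fin D → ℤ) → ℝ} {θ : Fin X.Nb → ℤ → Fin D → ℝ} {δT ε err : ℝ} {Amp Ψ : Fin X.Nb → ℝ}
    (hρ : ∀ n ∈ X.S, 0 < ρ n) (hc : ∀ n ∈ X.S, X.c n ≠ 0)
    (hg : ∀ ϑ : Fin D → ℝ, |2 * (∑ n ∈ X.S, X.c n * e (∑ j, n j * ϑ j)).re| ≤ 1)
    (hG : ∀ i, ∀ n ∈ X.S, ∀ u ∈ X.U i n, ‖X.G i n u‖ ^ 2 = ρ n)
    (hinv : ∀ i, ∀ n ∈ X.S, ∀ k : ℤ, ∑ u ∈ X.U i n, X.G i n u *
      e ((u : ℝ) * k / (2 * X.Q : ℕ)) = e (∑ j, n j * θ i k j))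
    (hnorm : ∀ n ∈ X.S, |(X.m n : ℝ) * X.B / ρ n - ‖X.c n‖ ^ 2| ≤ δT * ‖X.c n‖ ^ 2)
    (hδc : 2 * δT * ∑ n ∈ X.S, ‖X.c n‖ ≤ ε) (hε : 0 ≤ ε)
    (hAmp : ∀ i, 0 ≤ Amp i ∧ Amp i ≤ 1)
    (hAmp0 : ∀ i, ((k : ℝ) / N < X.o i ∨ X.o i + X.κ X.L < (k : ℝ) / N) → Amp i = 0)
    (hst : ∀ i, ∀ n ∈ X.S, ∀ s : ℝ, s = X.m n * X.B * N →
      ‖∑ l ∈ range X.L, (X.A l : ℂ) *
          e (s * (stP (fun l => X.o i + X.κ l) X.A l -
            (k : ℝ) / N * stT (fun l => X.o i + X.κ l) X.A l -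
            X.A l ^ 2 * (X.o i + X.κ l - (k : ℝ) / N) ^ 2 / 2)) *
          (fresnel (X.A l * √s * (X.o i + X.κ (l + 1) - (k : ℝ) / N)) -
            fresnel (X.A l * √s * (X.o i + X.κ l - (k : ℝ) / N))) -
        fc * (Amp i : ℂ) * e (s * Ψ i)‖ ≤ err) :
    |2 * (∑ j, (X.R N j).sum N k).re| ≤ (1 + ε) +
      ∑ p : X.Piece, 2 * (√(X.m p.2.1 * X.B) * err) +
      X.F.card * (2 * (2 * Cf / (√(N : ℝ) * (X.d / 3)))) := by
  classical
  set x := (k : ℝ) / N
  set small := 2 * (2 * Cf / (√(N : ℝ) * (X.d / 3)))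
  have hd := X.hd
  have hsmall : 0 ≤ small := by positivity
  set q : ℝ := 2 * (X.Q : ℝ) with hqdef
  have hq : 0 < q := by have := X.hQ; positivity
  have hblock : ∀ i, |2 * (∑ n ∈ X.S, ∑ u ∈ X.U i n, (X.fwd i n u).sum N k).re| ≤
      Amp i * (1 + ε) + 2 * ∑ n ∈ X.S, ∑ u ∈ X.U i n, √(X.m n * X.B) * err := fun i => by
    have h := block_bound (q := 2 * X.Q) (L := X.L) (κ := fun l => X.o i + X.κ l) (A := X.A)
      (β := X.ell * X.Lb / 2) (err := err) (Ψ := Ψ i) X.hv hc hg (X.U i) (X.G i) ρ (θ i) hN X.hB hρ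
      (hG i) (hinv i) hnorm X.hA (fun l hl => by linarith [X.hκ l hl]) (hAmp i).1 k (hAmp i).2
      (hst i)
    simp only [Nat.cast_mul, Nat.cast_ofNat] at h
    exact h.trans (add_le_add (mul_le_mul_of_nonneg_left (by linarith) (hAmp i).1) le_rfl)
  have h1 : 0 < (1 - X.ell) / q := div_pos (by linarith [X.hell1]) hq
  have hfree : ∀ y : ↥X.F, |2 * ((X.free y).sum N k).re| ≤ 1 / 2 ∧
      (¬ (X.f y - X.d / 3 < x ∧ x < X.f y + X.w + X.d / 3) →
        |2 * ((X.free y).sum N k).re| ≤ small) := fun y => by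
    have hs1 : (X.free y).sum N k = segV N ((((y : ℕ) : ℝ) + X.ell / 2) / q) (X.f y)
        ((((y : ℕ) : ℝ) + X.ell / 2) / q + (1 - X.ell) / q) (X.f y + X.w) 0 k := by
      simp [Run.sum, Run.zl, free, hqdef]
    rw [hs1, abs_mul, abs_two]
    refine ⟨?_, fun hfar => mul_le_mul_of_nonneg_left ?_ zero_le_two⟩
    · have h := (Complex.abs_re_le_norm _).trans
        (segV_norm (N := N) (lt_add_of_pos_right ((((y : ℕ) : ℝ) + X.ell / 2) / q) h1)
          (lt_add_of_pos_right (X.f y) X.hw) (z := 0) hE k)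
      rw [add_sub_cancel_left, add_sub_cancel_left] at h
      have hle : √((1 - X.ell) / q / X.w) ≤ 1 / (8 * Cf) := by
        refine (sqrt_le_left (by positivity)).2 ?_
        rw [div_le_iff₀ X.hw, div_pow, one_pow, mul_pow, div_mul_eq_mul_div, one_mul,
          le_div_iff₀ (by positivity)]
        linarith
      have h2 := mul_le_mul_of_nonneg_right hle (show (0 : ℝ) ≤ 2 * Cf by positivity)
      have h3 : 1 / (8 * Cf) * (2 * Cf) = 1 / 4 := by field_simp; ring
      linarith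
    · refine (Complex.abs_re_le_norm _).trans (segV_far hN (lt_add_of_pos_right _ h1)
        (lt_add_of_pos_right _ X.hw) hrem (by positivity) k ?_)
      simp only [not_and_or, not_lt] at hfar
      exact hfar
  have hW := X.W_nonneg
  have hw := X.hw.le
  have hsep : ∀ {a b : ℕ} (W' : ℝ), 0 ≤ W' → a < b →
      (a : ℝ) * (W' + X.d) + W' + X.d ≤ (b : ℝ) * (W' + X.d) := fun {a b} W' hW' hab => by
    have : (a : ℝ) + 1 ≤ b := by exact_mod_cast hab
    nlinarith
  have hkey := sum_two (fun i => Amp i * (1 + ε)) (fun y => |2 * ((X.free y).sum N k).re|)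
    (big := 1 + ε) (small := small) (fun i => X.o i ≤ x ∧ x ≤ X.o i + X.κ X.L)
    (fun y => X.f y - X.d / 3 < x ∧ x < X.f y + X.w + X.d / 3)
    (fun i i' ha hb => by
      rcases lt_trichotomy (i : ℕ) i' with h | h | h
      · have := hsep _ hW h
        simp only [o] at ha hb
        linarith
      · exact Fin.ext h
      · have := hsep _ hW h
        simp only [o] at ha hb
        linarith)
    (fun y y' ha hb => by
      rcases lt_trichotomy (X.F.equivFin y : ℕ) (X.F.equivFin y') with h | h | h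
      · have := hsep _ hw h
        simp only [f] at ha hb
        linarith
      · exact X.F.equivFin.injective (Fin.ext h)
      · have := hsep _ hw h
        simp only [f] at ha hb
        linarith)
    (fun i y ha hb => by
      have h1 := hsep _ hW i.isLt
      have h2 : 0 ≤ ((X.F.equivFin y : ℕ) : ℝ) * (X.w + X.d) := by positivity
      simp only [o, f] at ha hb
      linarith)
    (fun i => mul_le_of_le_one_left (by linarith) (hAmp i).2)
    (fun i hi => by
      simp only [not_and_or, not_le] at hi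
      rw [hAmp0 i hi, zero_mul])
    (fun y => by linarith [(hfree y).1]) (fun y hy => (hfree y).2 hy) (by linarith)
  rw [X.re_items hR hN k]
  refine (abs_add_le _ _).trans ((add_le_add ((abs_sum_le_sum_abs _ _).trans
    (sum_le_sum fun i _ => hblock i)) (abs_sum_le_sum_abs _ _)).trans ?_)
  rw [sum_add_distrib, X.sum_piece fun i n u => 2 * (√(X.m n * X.B) * err), Fintype.card_coe] at *
  simp only [mul_sum] at *
  linarith

end Lay

end Vale.Agent.P110.Exist.Layout
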